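import Mathlib

/-!
# A finite measure with compact carrier, invariant (infinitesimally) on periodic functions,
is dominated by Lebesgue measure
-/

open scoped ContDiff Topology ENNReal Manifold
open Filter Set Metric MeasureTheory Function

set_option linter.unusedSectionVars false

noncomputable section

namespace Vale.Agent.P284.H661.Hm

variable {W : Type*} [NormedAddCommGroup W] [NormedSpace ℝ W] [FiniteDimensional ℝ W]
  [MeasurableSpace W] [BorelSpace W]

section const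
variable {μ : Measure W} [IsFiniteMeasure μ] {S : Set W}

theorem int_of_compact (hS : IsCompact S) (hμS : μ Sᶜ = 0) {f : W → ℝ} (hf : Continuous f) :
    Integrable f μ := by
  obtain ⟨C, hC⟩ := hS.exists_bound_of_continuousOn hf.continuousOn
  refine Integrable.of_bound hf.aestronglyMeasurable C ?_
  have h1 : ∀ᵐ t ∂μ, t ∈ S := by
    rw [ae_iff]; exact hμS
  filter_upwards [h1] with t ht using hC t ht

/-- translation invariance from the vanishing of the derivative -/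
theorem const_of_deriv (hS : IsCompact S) (hμS : μ Sᶜ = 0) {φ : W → ℝ} (hφ : ContDiff ℝ ∞ φ)
    (v : W) (h : ∀ τ : ℝ, ∫ t, fderiv ℝ φ (t + τ • v) v ∂μ = 0) :
    ∫ t, φ (t + v) ∂μ = ∫ t, φ t ∂μ := by
  have hS' : ∀ᵐ t ∂μ, t ∈ S := by
    rw [ae_iff]; exact hμS
  have hc : Continuous (fun p : W × ℝ => fderiv ℝ φ (p.1 + p.2 • v) v) := by
    have h1 : Continuous (fderiv ℝ φ) := hφ.continuous_fderiv (by simp)
    exact (h1.comp (by fun_prop)).clm_apply continuous_const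
  have key : ∀ τ : ℝ, HasDerivAt (fun τ => ∫ t, φ (t + τ • v) ∂μ) 0 τ := by
    intro τ
    obtain ⟨B, hB⟩ := (hS.prod (isCompact_closedBall τ 1)).exists_bound_of_continuousOn
      hc.continuousOn
    have := hasDerivAt_integral_of_dominated_loc_of_deriv_le (μ := μ) (s := closedBall τ 1)
      (F := fun τ t => φ (t + τ • v)) (F' := fun τ t => fderiv ℝ φ (t + τ • v) v)
      (x₀ := τ) (bound := fun _ => B) (closedBall_mem_nhds τ one_pos)
      (Eventually.of_forall fun x =>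
        (hφ.continuous.comp (by fun_prop)).aestronglyMeasurable)
      (int_of_compact hS hμS (hφ.continuous.comp (by fun_prop)))
      (hc.comp (by fun_prop : Continuous fun t : W => (t, τ))).aestronglyMeasurable
      (by
        filter_upwards [hS'] with t ht x hx using hB (t, x) ⟨ht, hx⟩)
      (integrable_const B)
      (by
        refine Eventually.of_forall fun t x _ => ?_
        have h1 : HasFDerivAt φ (fderiv ℝ φ (t + x • v)) (t + x • v) :=
          (hφ.differentiable (by simp) _).hasFDerivAt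
        have h2 : HasDerivAt (fun x : ℝ => t + x • v) v x := by
          simpa using ((hasDerivAt_id x).smul_const v).const_add t
        exact h1.comp_hasDerivAt x h2)
    have h3 := this.2
    rwa [h τ] at h3
  have h4 := is_const_of_deriv_eq_zero (fun τ => (key τ).differentiableAt)
    (fun τ => (key τ).deriv) 1 0
  simpa using h4

end const

section per
variable (Λ : AddSubgroup W) (hΛ : ∀ R : ℝ, {v : W | v ∈ Λ ∧ ‖v‖ ≤ R}.Finite)

include hΛ in
theorem sep : ∃ δ : ℝ, 0 < δ ∧ ∀ v ∈ Λ, ‖v‖ < 2 * δ → v = 0 := by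
  set T : Set W := {v : W | v ∈ Λ ∧ ‖v‖ ≤ 1} \ {0} with hT
  have hTf : T.Finite := (hΛ 1).sdiff
  have h1 : Tᶜ ∈ 𝓝 (0 : W) := hTf.isClosed.isOpen_compl.mem_nhds (by simp [hT])
  obtain ⟨ε, hε, hb⟩ := Metric.mem_nhds_iff.1 h1
  refine ⟨min (ε / 2) (1 / 2), lt_min (by positivity) (by norm_num), fun v hv hn => ?_⟩
  by_contra h0
  have h2 : ‖v‖ < ε := by
    have := min_le_left (ε / 2) (1 / 2)
    linarith
  have h3 : ‖v‖ ≤ 1 := by
    have := min_le_right (ε / 2) (1 / 2 : ℝ)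
    linarith
  exact hb (mem_ball_zero_iff.2 h2) ⟨⟨hv, h3⟩, h0⟩

include hΛ in
theorem countable_L : Countable Λ := by
  have h1 : (Λ : Set W) = ⋃ k : ℕ, {v : W | v ∈ Λ ∧ ‖v‖ ≤ k} := by
    ext v
    simp only [SetLike.mem_coe, mem_iUnion, mem_ofPred_eq, exists_and_left]
    exact ⟨fun h => ⟨h, exists_nat_ge _⟩, fun h => h.1⟩
  have h2 : (Λ : Set W).Countable := by
    rw [h1]
    exact countable_iUnion fun k => (hΛ k).countable
  exact h2.to_subtype

variable {ψ : W → ℝ}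

/-- periodization -/
def pz (ψ : W → ℝ) (t : W) : ℝ := ∑ᶠ l : Λ, ψ (t + l)

include hΛ in
theorem lf (hc : HasCompactSupport ψ) : LocallyFinite fun l : Λ => support fun t => ψ (t + l) := by
  intro t
  obtain ⟨R, hR⟩ := hc.isCompact.isBounded.subset_closedBall (0 : W)
  refine ⟨ball t 1, ball_mem_nhds t one_pos, ?_⟩
  have h1 : {l : Λ | (l : W) ∈ {v : W | v ∈ Λ ∧ ‖v‖ ≤ R + ‖t‖ + 1}}.Finite :=
    (hΛ (R + ‖t‖ + 1)).preimage Subtype.val_injective.injOn
  refine h1.subset ?_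
  rintro l ⟨x, hx1, hx2⟩
  refine ⟨l.2, ?_⟩
  have h2 : ‖x + (l : W)‖ ≤ R := by
    have := hR (subset_tsupport _ (mem_support.2 hx1 : x + (l : W) ∈ support ψ))
    simpa using this
  have h3 : ‖x - t‖ < 1 := by simpa [dist_eq_norm] using hx2
  calc ‖(l : W)‖ = ‖(x + l) - (x - t) - t‖ := by congr 1; abel
    _ ≤ ‖(x + l) - (x - t)‖ + ‖t‖ := norm_sub_le _ _
    _ ≤ ‖x + (l : W)‖ + ‖x - t‖ + ‖t‖ := by gcongr; exact norm_sub_le _ _
    _ ≤ R + ‖t‖ + 1 := by linarith

include hΛ in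
theorem pz_smooth (hc : HasCompactSupport ψ) (hψ : ContDiff ℝ ∞ ψ) : ContDiff ℝ ∞ (pz Λ ψ) := by
  rw [← contMDiff_iff_contDiff]
  refine contMDiff_finsum (fun l => ?_) (lf Λ hΛ hc)
  rw [contMDiff_iff_contDiff]
  exact hψ.comp (contDiff_id.add contDiff_const)

theorem pz_add (l : W) (hl : l ∈ Λ) (t : W) : pz Λ ψ (t + l) = pz Λ ψ t := by
  unfold pz
  refine (finsum_congr fun k => ?_).trans
    (finsum_comp_equiv (Equiv.addLeft (⟨l, hl⟩ : Λ)) (f := fun k : Λ => ψ (t + k)))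
  simp only [Equiv.coe_addLeft, AddSubgroup.coe_add]
  rw [add_assoc]

include hΛ in
theorem fin_supp (hc : HasCompactSupport ψ) (t : W) : (support fun l : Λ => ψ (t + l)).Finite :=
  (lf Λ hΛ hc).point_finite t

include hΛ in
theorem le_pz (hc : HasCompactSupport ψ) (h0 : ∀ x, 0 ≤ ψ x) (t : W) : ψ t ≤ pz Λ ψ t := by
  have := single_le_finsum (0 : Λ) (fin_supp Λ hΛ hc t) fun j => h0 _
  simpa [pz] using this

theorem pz_nonneg (h0 : ∀ x, 0 ≤ ψ x) (t : W) : 0 ≤ pz Λ ψ t := finsum_nonneg fun _ => h0 _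

include hΛ in
theorem ofReal_pz (hc : HasCompactSupport ψ) (h0 : ∀ x, 0 ≤ ψ x) (t : W) :
    ENNReal.ofReal (pz Λ ψ t) ≤ ∑' l : Λ, ENNReal.ofReal (ψ (t + l)) := by
  rw [pz, finsum_eq_sum _ (fin_supp Λ hΛ hc t), ENNReal.ofReal_sum_of_nonneg fun _ _ => h0 _]
  exact ENNReal.sum_le_tsum _

variable (vol : Measure W) [vol.IsAddHaarMeasure]

include hΛ in
theorem bound_pz (hc : HasCompactSupport ψ) (hψ : ContDiff ℝ ∞ ψ) (h0 : ∀ x, 0 ≤ ψ x) {δ : ℝ}
    (hδ : ∀ v ∈ Λ, ‖v‖ < 2 * δ → v = 0) (t : W) :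
    ∫⁻ v in ball (0 : W) δ, ENNReal.ofReal (pz Λ ψ (t + v)) ∂vol ≤ ∫⁻ y, ENNReal.ofReal (ψ y) ∂vol := by
  have := countable_L Λ hΛ
  have hm : Measurable fun y => ENNReal.ofReal (ψ y) := hψ.continuous.measurable.ennreal_ofReal
  have h1 : ∀ l : Λ, ∫⁻ v in ball (0 : W) δ, ENNReal.ofReal (ψ (t + v + l)) ∂vol =
      ∫⁻ y in ball (t + (l : W)) δ, ENNReal.ofReal (ψ y) ∂vol := by
    intro l
    rw [← lintegral_indicator measurableSet_ball, ← lintegral_indicator measurableSet_ball]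
    refine (lintegral_congr fun v => ?_).trans (lintegral_add_right_eq_self
      ((ball (t + (l : W)) δ).indicator fun y => ENNReal.ofReal (ψ y)) (t + (l : W)))
    have e1 : v + (t + (l : W)) ∈ ball (t + (l : W)) δ ↔ v ∈ ball (0 : W) δ := by
      simp [dist_eq_norm]
    have e2 : t + v + (l : W) = v + (t + (l : W)) := by abel
    by_cases hv : v ∈ ball (0 : W) δ
    · rw [indicator_of_mem hv, indicator_of_mem (e1.2 hv), e2]
    · rw [indicator_of_notMem hv, indicator_of_notMem fun h => hv (e1.1 h)]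
  have hd : Pairwise (Disjoint on fun l : Λ => ball (t + (l : W)) δ) := by
    intro l k hlk
    refine Set.disjoint_left.2 fun x hx hy => hlk ?_
    have h2 : ‖x - (t + l)‖ < δ := by simpa [dist_eq_norm] using hx
    have h3 : ‖x - (t + k)‖ < δ := by simpa [dist_eq_norm] using hy
    have h4 : (l : W) - k = 0 := by
      refine hδ _ (Λ.sub_mem l.2 k.2) ?_
      calc ‖(l : W) - k‖ = ‖(x - (t + k)) - (x - (t + l))‖ := by congr 1; abel
        _ ≤ ‖x - (t + k)‖ + ‖x - (t + l)‖ := norm_sub_le _ _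
        _ < 2 * δ := by linarith
    exact Subtype.ext (sub_eq_zero.1 h4)
  calc ∫⁻ v in ball (0 : W) δ, ENNReal.ofReal (pz Λ ψ (t + v)) ∂vol
      ≤ ∫⁻ v in ball (0 : W) δ, ∑' l : Λ, ENNReal.ofReal (ψ (t + v + l)) ∂vol :=
        lintegral_mono fun v => ofReal_pz Λ hΛ hc h0 (t + v)
    _ = ∑' l : Λ, ∫⁻ v in ball (0 : W) δ, ENNReal.ofReal (ψ (t + v + l)) ∂vol := by
        refine lintegral_tsum fun l => ?_
        exact (hm.comp (by fun_prop)).aemeasurable
    _ = ∑' l : Λ, ∫⁻ y in ball (t + (l : W)) δ, ENNReal.ofReal (ψ y) ∂vol := by simp only [h1]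
    _ = ∫⁻ y in ⋃ l : Λ, ball (t + (l : W)) δ, ENNReal.ofReal (ψ y) ∂vol :=
        (lintegral_iUnion (fun l => measurableSet_ball) hd _).symm
    _ ≤ ∫⁻ y, ENNReal.ofReal (ψ y) ∂vol := setLIntegral_le_lintegral _ _

end per

section main
variable (vol : Measure W) [vol.IsAddHaarMeasure]

/-- domination by testing on bump functions -/
theorem le_of_test {ν : Measure W} [IsFiniteMeasure ν] {A : ℝ≥0∞} (hA : A ≠ ⊤)
    (h : ∀ ψ : W → ℝ, ContDiff ℝ ∞ ψ → HasCompactSupport ψ → (∀ x, 0 ≤ ψ x) →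
      ∫⁻ t, ENNReal.ofReal (ψ t) ∂ν ≤ A * ∫⁻ y, ENNReal.ofReal (ψ y) ∂vol) : ν ≤ A • vol := by
  have : (A • vol).OuterRegular := Measure.OuterRegular.smul _ hA
  refine Measure.le_iff.2 fun s hs => ?_
  rw [hs.measure_eq_iSup_isCompact ν]
  refine iSup_le fun K => iSup_le fun hKs => iSup_le fun hK => ?_
  refine le_trans ?_ (measure_mono hKs)
  rw [Set.measure_eq_iInf_isOpen K (A • vol)]
  refine le_iInf fun U => le_iInf fun hKU => le_iInf fun hU => ?_
  obtain ⟨L, hL, hKL, hLU⟩ := exists_compact_between hK hU hKU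
  obtain ⟨f, hf0, hf1, hf⟩ := exists_contMDiffMap_zero_one_of_isClosed (n := ⊤) 𝓘(ℝ, W)
    (isOpen_interior (s := L)).isClosed_compl hK.isClosed
    (Set.disjoint_left.2 fun x hx hxK => hx (hKL hxK))
  have hsupp : support f ⊆ L := by
    intro x hx
    by_contra hxL
    exact hx (hf0 fun h' => hxL (interior_subset h'))
  have hcs : HasCompactSupport f := HasCompactSupport.of_support_subset_isCompact hL hsupp
  have hsm : ContDiff ℝ ∞ f := contMDiff_iff_contDiff.1 f.contMDiff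
  have h1 := h f hsm hcs fun x => (hf x).1
  calc ν K = ∫⁻ t, K.indicator 1 t ∂ν := by rw [lintegral_indicator_one hK.measurableSet]
    _ ≤ ∫⁻ t, ENNReal.ofReal (f t) ∂ν := by
        refine lintegral_mono fun t => ?_
        by_cases ht : t ∈ K
        · rw [indicator_of_mem ht, hf1 ht]
          simp
        · rw [indicator_of_notMem ht]
          exact zero_le
    _ ≤ A * ∫⁻ y, ENNReal.ofReal (f y) ∂vol := h1
    _ ≤ A * ∫⁻ y, U.indicator 1 y ∂vol := by
        gcongr with y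
        by_cases hy : y ∈ U
        · rw [indicator_of_mem hy]
          exact ENNReal.ofReal_le_one.2 (hf y).2
        · rw [indicator_of_notMem hy]
          have : f y = 0 := by
            by_contra h0
            exact hy (hLU (hsupp h0))
          simp [this]
    _ = (A • vol) U := by
        rw [lintegral_indicator_one hU.measurableSet, Measure.smul_apply, smul_eq_mul]

/-- **the measure lemma** -/
theorem dominated (Λ : AddSubgroup W) (hΛ : ∀ R : ℝ, {v : W | v ∈ Λ ∧ ‖v‖ ≤ R}.Finite)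
    {μ : Measure W} [IsFiniteMeasure μ] {S : Set W} (hS : IsCompact S) (hμS : μ Sᶜ = 0)
    (hd : ∀ φ : W → ℝ, ContDiff ℝ ∞ φ → (∀ l ∈ Λ, ∀ t, φ (t + l) = φ t) → ∀ v,
      ∫ t, fderiv ℝ φ t v ∂μ = 0) :
    ∃ A : ℝ≥0∞, A ≠ ⊤ ∧ ∀ (ν : Measure W) [IsFiniteMeasure ν],
      (∀ φ : W → ℝ, ContDiff ℝ ∞ φ → (∀ l ∈ Λ, ∀ t, φ (t + l) = φ t) → (∀ t, 0 ≤ φ t) →
        ∫⁻ t, ENNReal.ofReal (φ t) ∂ν ≤ ∫⁻ t, ENNReal.ofReal (φ t) ∂μ) → ν ≤ A • vol := by
  obtain ⟨δ, hδ, hsep⟩ := sep Λ hΛ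
  have hB : vol (ball (0 : W) δ) ≠ 0 := (measure_ball_pos vol _ hδ).ne'
  have hB' : vol (ball (0 : W) δ) ≠ ⊤ := measure_ball_lt_top.ne
  have hA : (vol (ball (0 : W) δ))⁻¹ * μ univ ≠ ⊤ :=
    ENNReal.mul_ne_top (ENNReal.inv_ne_top.2 hB) (measure_ne_top _ _)
  refine ⟨(vol (ball (0 : W) δ))⁻¹ * μ univ, hA, fun ν _ hν => ?_⟩
  refine le_of_test vol hA fun ψ hψ hc h0 => ?_
  have hp := pz_smooth Λ hΛ hc hψ
  have hp0 := pz_nonneg Λ h0
  have hpm : Measurable fun t => ENNReal.ofReal (pz Λ ψ t) := hp.continuous.measurable.ennreal_ofReal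
  have h1 : ∫⁻ t, ENNReal.ofReal (ψ t) ∂ν ≤ ∫⁻ t, ENNReal.ofReal (pz Λ ψ t) ∂μ :=
    (lintegral_mono fun t => ENNReal.ofReal_le_ofReal (le_pz Λ hΛ hc h0 t)).trans
      (hν _ hp (fun l hl t => pz_add Λ l hl t) hp0)
  have h2 : ∀ v : W, ∫⁻ t, ENNReal.ofReal (pz Λ ψ (t + v)) ∂μ =
      ∫⁻ t, ENNReal.ofReal (pz Λ ψ t) ∂μ := by
    intro v
    have hcv : Continuous fun t => pz Λ ψ (t + v) := hp.continuous.comp (by fun_prop)
    rw [← ofReal_integral_eq_lintegral_ofReal (int_of_compact hS hμS hcv)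
      (Eventually.of_forall fun t => hp0 _),
      ← ofReal_integral_eq_lintegral_ofReal (int_of_compact hS hμS hp.continuous)
      (Eventually.of_forall fun t => hp0 _)]
    congr 1
    refine const_of_deriv hS hμS hp v fun τ => ?_
    have h3 := hd (fun t => pz Λ ψ (t + τ • v)) (hp.comp (contDiff_id.add contDiff_const))
      (fun l hl t => by
        have : t + l + τ • v = t + τ • v + l := by abel
        simp only [this]
        exact pz_add Λ l hl _) v
    rw [← h3]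
    refine integral_congr_ae (Eventually.of_forall fun t => ?_)
    simp only
    rw [fderiv_comp_add_right]
  have h3 : vol (ball (0 : W) δ) * ∫⁻ t, ENNReal.ofReal (pz Λ ψ t) ∂μ ≤
      μ univ * ∫⁻ y, ENNReal.ofReal (ψ y) ∂vol := by
    calc vol (ball (0 : W) δ) * ∫⁻ t, ENNReal.ofReal (pz Λ ψ t) ∂μ
        = ∫⁻ v in ball (0 : W) δ, (∫⁻ t, ENNReal.ofReal (pz Λ ψ (t + v)) ∂μ) ∂vol := by
          simp only [h2, lintegral_const, Measure.restrict_apply_univ]
          rw [mul_comm]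
      _ = ∫⁻ t, (∫⁻ v in ball (0 : W) δ, ENNReal.ofReal (pz Λ ψ (t + v)) ∂vol) ∂μ := by
          rw [lintegral_lintegral_swap]
          exact (hpm.comp (by fun_prop : Measurable fun p : W × W => p.2 + p.1)).aemeasurable
      _ ≤ ∫⁻ _t, (∫⁻ y, ENNReal.ofReal (ψ y) ∂vol) ∂μ :=
          lintegral_mono fun t => bound_pz Λ hΛ vol hc hψ h0 hsep t
      _ = μ univ * ∫⁻ y, ENNReal.ofReal (ψ y) ∂vol := by
          rw [lintegral_const, mul_comm]
  refine h1.trans ?_
  calc ∫⁻ t, ENNReal.ofReal (pz Λ ψ t) ∂μ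
      = (vol (ball (0 : W) δ))⁻¹ * (vol (ball (0 : W) δ) * ∫⁻ t, ENNReal.ofReal (pz Λ ψ t) ∂μ) := by
        rw [← mul_assoc, ENNReal.inv_mul_cancel hB hB', one_mul]
    _ ≤ (vol (ball (0 : W) δ))⁻¹ * (μ univ * ∫⁻ y, ENNReal.ofReal (ψ y) ∂vol) := by gcongr
    _ = (vol (ball (0 : W) δ))⁻¹ * μ univ * ∫⁻ y, ENNReal.ofReal (ψ y) ∂vol := by rw [mul_assoc]

end main

end Vale.Agent.P284.H661.Hm
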