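import Vale.Agent.P284.H661.Haar1
import Vale.Agent.P284.H661.Haar2

/-!
# P284, push-forward = Haar, level of `Coc`
-/

open scoped Manifold ContDiff Topology Pointwise ComplexConjugate ComplexOrder Matrix ENNReal
open Filter Set Metric MeasureTheory

noncomputable section

namespace Vale.Agent.P284.H661

open Vale.Agent.P272.K Vale.Agent.P272.K.C2 Vale.Agent.P284.H248 Vale.Agent.P284.H894
  Vale.Agent.P284.H894.V Vale.Agent.P284.H639.V Vale.Agent.P284.H66 Vale.Agent.P284.H913.V
  Vale.Agent.P284.H66.S7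

section glob
variable {n N : ℕ} {Γ : Type} [Group Γ] {C : Coc n Γ} {p q : Matrix (Fin N) (Fin N) ℂ}
  (D : Dat C p q)

/-- push-forward of `ρ dz` on `V a` -/
def pm (a : C.I) (ρ : Cm n → ℝ) : Measure (Cm N) :=
  Measure.map (D.F 1 a) ((volume.restrict (C.V a)).withDensity fun z => ENNReal.ofReal (ρ z))

theorem aem (a : C.I) : AEMeasurable (D.F 1 a) (volume.restrict (C.V a)) :=
  ((D.hol 1 a).continuousOn.mono (V_sub_Ω C a)).aemeasurable measurableSet_ball

variable {a : C.I} {ρ : Cm n → ℝ} (hρ : ContinuousOn ρ (C.Ω a))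

include hρ in
theorem aem_rho : AEMeasurable (fun z => ENNReal.ofReal (ρ z)) (volume.restrict (C.V a)) :=
  ((hρ.mono (V_sub_Ω C a)).aemeasurable measurableSet_ball).ennreal_ofReal

theorem aem' (a : C.I) (ρ : Cm n → ℝ) : AEMeasurable (D.F 1 a)
    ((volume.restrict (C.V a)).withDensity fun z => ENNReal.ofReal (ρ z)) :=
  (aem D a).mono_ac (withDensity_absolutelyContinuous _ _)

include hρ in
theorem pm_lint {s : Cm N → ℝ≥0∞} (hs : Measurable s) :
    ∫⁻ y, s y ∂(pm D a ρ) = ∫⁻ z in C.V a, s (D.F 1 a z) * ENNReal.ofReal (ρ z) := by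
  have h1 : AEMeasurable (fun z => s (D.F 1 a z)) (volume.restrict (C.V a)) :=
    hs.comp_aemeasurable (aem D a)
  rw [pm, lintegral_map' hs.aemeasurable (aem' D a ρ),
    lintegral_withDensity_eq_lintegral_mul₀ (aem_rho hρ) h1]
  refine lintegral_congr fun z => ?_
  rw [Pi.mul_apply, mul_comm]

include hρ in
theorem pm_fin : IsFiniteMeasure (pm D a ρ) := by
  refine ⟨?_⟩
  have h1 : IntegrableOn ρ (C.V a) :=
    ((hρ.mono (closed_sub_Ω C a)).integrableOn_compact (isCompact_closedBall _ _)).mono_set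
      (V_sub_closed C a)
  have h2 := pm_lint D hρ (s := fun _ => 1) measurable_const
  rw [lintegral_one] at h2
  rw [h2]
  simp only [one_mul]
  exact h1.lintegral_lt_top

include hρ in
theorem pm_carrier : pm D a ρ (D.F 1 a '' closedBall (C.c a) (3 * C.r a))ᶜ = 0 := by
  have hc : IsCompact (D.F 1 a '' closedBall (C.c a) (3 * C.r a)) :=
    (isCompact_closedBall _ _).image_of_continuousOn
      ((D.hol 1 a).continuousOn.mono (closed_sub_Ω C a))
  have hm : MeasurableSet (D.F 1 a '' closedBall (C.c a) (3 * C.r a))ᶜ := hc.measurableSet.compl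
  have h2 := pm_lint D hρ (s := (D.F 1 a '' closedBall (C.c a) (3 * C.r a))ᶜ.indicator 1)
    (measurable_one.indicator hm)
  rw [lintegral_indicator_one hm] at h2
  rw [h2]
  refine (setLIntegral_congr_fun measurableSet_ball fun z hz => ?_).trans lintegral_zero
  have h3 : D.F 1 a z ∉ (D.F 1 a '' closedBall (C.c a) (3 * C.r a))ᶜ :=
    fun h => h ⟨z, V_sub_closed C a hz, rfl⟩
  simp only [indicator_of_notMem h3, zero_mul]

include hρ in
theorem pm_int (h0 : ∀ z ∈ C.V a, 0 ≤ ρ z) {φ : Cm N → ℝ} (hφ : Continuous φ) :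
    ∫ y, φ y ∂(pm D a ρ) = ∫ z in C.V a, ρ z * φ (D.F 1 a z) := by
  rw [pm, integral_map (aem' D a ρ) hφ.aestronglyMeasurable,
    integral_withDensity_eq_integral_toReal_smul₀ (aem_rho hρ)
      (Eventually.of_forall fun _ => ENNReal.ofReal_lt_top)]
  refine setIntegral_congr_fun measurableSet_ball fun z hz => ?_
  simp only [ENNReal.toReal_ofReal (h0 z hz), smul_eq_mul]

variable (P : PU C) (K : KM C)

/-- the density of the total push-forward on the piece `a` -/
def rh (a : C.I) (z : Cm n) : ℝ := P.χ a a z * dn D K a z * vol (K.w a) z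

theorem rh_cont (a : C.I) : ContinuousOn (rh D P K a) (C.Ω a) :=
  ((chi_cont P a a).mul (dn_cont D K a)).mul (vol_cont K a)

theorem rh_nonneg (a : C.I) : ∀ z ∈ C.V a, 0 ≤ rh D P K a z := fun _ hz =>
  mul_nonneg (mul_nonneg (P.nonneg a a _) (dn_nonneg D K (V_sub_Ω C a hz)))
    (vol_nn K (V_sub_Ω C a hz))

theorem dv_cont (a : C.I) : ContinuousOn (fun z => dn D K a z * vol (K.w a) z) (C.Ω a) :=
  (dn_cont D K a).mul (vol_cont K a)

theorem dv_nonneg (a : C.I) : ∀ z ∈ C.V a, 0 ≤ dn D K a z * vol (K.w a) z := fun _ hz =>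
  mul_nonneg (dn_nonneg D K (V_sub_Ω C a hz)) (vol_nn K (V_sub_Ω C a hz))

/-- the total push-forward -/
def mu : Measure (Cm N) := ∑ a, pm D a (rh D P K a)

theorem mu_fin : IsFiniteMeasure (mu D P K) := by
  have : ∀ a, IsFiniteMeasure (pm D a (rh D P K a)) := fun a => pm_fin D (rh_cont D P K a)
  refine ⟨?_⟩
  rw [mu, Measure.finsetSum_apply]
  exact ENNReal.sum_lt_top.2 fun a _ => measure_lt_top _ _

/-- carrier -/
def car : Set (Cm N) := ⋃ a : C.I, D.F 1 a '' closedBall (C.c a) (3 * C.r a)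

theorem car_compact : IsCompact (car D) :=
  isCompact_iUnion fun a => (isCompact_closedBall _ _).image_of_continuousOn
      ((D.hol 1 a).continuousOn.mono (closed_sub_Ω C a))

theorem mu_car : mu D P K (car D)ᶜ = 0 := by
  rw [mu, Measure.finsetSum_apply]
  refine Finset.sum_eq_zero fun a _ => measure_mono_null ?_ (pm_carrier D (rh_cont D P K a))
  exact compl_subset_compl.2 (subset_iUnion (fun a : C.I =>
    D.F 1 a '' closedBall (C.c a) (3 * C.r a)) a)

theorem mu_int {φ : Cm N → ℝ} (hφ : Continuous φ) :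
    ∫ y, φ y ∂(mu D P K) = BInt P K (fun a z => dn D K a z * φ (D.F 1 a z)) := by
  have h1 : ∀ a ∈ Finset.univ, Integrable φ (pm D a (rh D P K a)) := by
    intro a _
    have := pm_fin D (rh_cont D P K a)
    exact Hm.int_of_compact ((isCompact_closedBall _ _).image_of_continuousOn
      ((D.hol 1 a).continuousOn.mono (closed_sub_Ω C a))) (pm_carrier D (rh_cont D P K a)) hφ
  rw [mu, integral_finsetSum_measure h1, BInt]
  refine Finset.sum_congr rfl fun a _ => ?_
  rw [pm_int D (rh_cont D P K a) (rh_nonneg D P K a) hφ]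
  refine setIntegral_congr_fun measurableSet_ball fun z _ => ?_
  simp only [rh]
  ring

/-- the group of periods -/
def per : AddSubgroup (Cm N) where
  carrier := {v | ∃ g, D.c g = v}
  add_mem' := by
    rintro _ _ ⟨g, rfl⟩ ⟨h, rfl⟩
    exact ⟨g * h, D.c_mul g h⟩
  zero_mem' := by
    refine ⟨1, ?_⟩
    have := D.c_mul 1 1
    rw [mul_one] at this
    simpa using this
  neg_mem' := by
    rintro _ ⟨g, rfl⟩
    refine ⟨g⁻¹, ?_⟩
    have h1 := D.c_mul g⁻¹ g
    have h2 := D.c_mul 1 1
    rw [mul_one] at h2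
    rw [inv_mul_cancel] at h1
    have h3 : D.c 1 = 0 := by simpa using h2
    rw [h3] at h1
    exact (neg_eq_of_add_eq_zero_left h1.symm).symm

include P in
theorem haar_one (hfin : ∀ R : ℝ, {v : Cm N | (∃ g, D.c g = v) ∧ ‖v‖ ≤ R}.Finite) :
    ∃ A : ℝ≥0∞, A ≠ ⊤ ∧ ∀ (a : C.I) (s : Cm N → ℝ≥0∞), Measurable s →
      ∫⁻ z in C.V a, s (D.F 1 a z) * ENNReal.ofReal (dn D K a z * vol (K.w a) z) ≤
        A * ∫⁻ y, s y := by
  have := mu_fin D P K
  obtain ⟨A, hA, hdom⟩ := Hm.dominated (volume : Measure (Cm N)) (per D) hfin (μ := mu D P K)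
    (car_compact D) (mu_car D P K) (fun φ hφ hper v => by
      have h1 : ∀ g t, φ (t + D.c g) = φ t := fun g t => hper _ ⟨g, rfl⟩ t
      have h2 : Continuous fun t => fderiv ℝ φ t v :=
        (hφ.continuous_fderiv (by simp)).clm_apply continuous_const
      rw [mu_int D P K h2]
      exact bint_dphi D P K hφ h1 v)
  refine ⟨A, hA, fun a s hs => ?_⟩
  have hfa := pm_fin D (dv_cont D K a)
  have h1 : pm D a (fun z => dn D K a z * vol (K.w a) z) ≤ A • volume := by
    refine hdom _ fun φ hφ hper h0 => ?_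
    have hp : ∀ g t, φ (t + D.c g) = φ t := fun g t => hper _ ⟨g, rfl⟩ t
    rw [← ofReal_integral_eq_lintegral_ofReal (Hm.int_of_compact
      ((isCompact_closedBall _ _).image_of_continuousOn
      ((D.hol 1 a).continuousOn.mono (closed_sub_Ω C a))) (pm_carrier D (dv_cont D K a))
        hφ.continuous) (Eventually.of_forall h0),
      ← ofReal_integral_eq_lintegral_ofReal (Hm.int_of_compact (car_compact D) (mu_car D P K)
        hφ.continuous) (Eventually.of_forall h0)]
    refine ENNReal.ofReal_le_ofReal ?_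
    rw [pm_int D (dv_cont D K a) (dv_nonneg D K a) hφ.continuous, mu_int D P K hφ.continuous]
    have h2 := (phi_BD D K hφ hp).le P K (fun b z hz => mul_nonneg (dn_nonneg D K hz) (h0 _)) a
    refine le_trans (le_of_eq ?_) h2
    exact setIntegral_congr_fun measurableSet_ball fun z _ => by ring
  rw [← pm_lint D (dv_cont D K a) hs]
  calc ∫⁻ y, s y ∂(pm D a fun z => dn D K a z * vol (K.w a) z)
      ≤ ∫⁻ y, s y ∂(A • (volume : Measure (Cm N))) := lintegral_mono' h1 le_rfl
    _ = A * ∫⁻ y, s y := by rw [lintegral_smul_measure, smul_eq_mul]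

end glob

/-- **P1: push-forward = Haar, level of `Coc`** -/
theorem haarCocStmt : HaarCocStmt := by
  intro n Γ _ C P K q F c hF hcomp hequi hfin
  let D : Dat C (0 : Matrix (Fin q) (Fin q) ℂ) (0 : Matrix (Fin q) (Fin q) ℂ) :=
    { F := F, c := c, f := fun _ => 0, hol := hF, compat := hcomp, equi := hequi
      co := fun g' g => by simp [BB] }
  obtain ⟨A, hA, h⟩ := haar_one D P K hfin
  refine ⟨A, hA, fun g a s hs => ?_⟩
  have h1 := h a (fun y => s (y + c g)) (hs.comp (measurable_add_const _))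
  rw [lintegral_add_right_eq_self (μ := (volume : Measure (Cm q))) s (c g)] at h1
  refine le_trans (le_of_eq ?_) h1
  refine setLIntegral_congr_fun measurableSet_ball fun z hz => ?_
  have hz' := V_sub_Ω C a hz
  have e1 : F g a z = D.F 1 a z + c g := by
    have := hequi g 1 a z hz'
    rwa [mul_one] at this
  have e2 : JF (F g a) z = D.J a z := JF_add_const (D.holV 1 hz') (D.F_shift g hz')
  have e3 : dJ (F g a) (K.w a z) z = dn D K a z := by
    rw [dJ, e2]; rfl
  simp only [e1, e3]

end Vale.Agent.P284.H661
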