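import Vale.Agent.P284.H661.Lim5

/-!
# P284, MF(I), the limit
-/

open scoped Manifold ContDiff Topology ENNReal Matrix
open Filter Set Metric MeasureTheory

noncomputable section

namespace Vale.Agent.P284.H661.Lim

open Vale.Agent.P272.K Vale.Agent.P284.H573 Vale.Agent.P284.H894.G Vale.Agent.P284.H894.W
  Vale.Agent.P284.H494 Vale.Agent.P284.H672 Vale.Agent.P284.H10 Vale.Agent.P284.H224
  Vale.Agent.P284.H366

/-- the sequence of weights -/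
def sq (k : ℕ) : ℝ := 1 / ((k : ℝ) + 1)

theorem sq_pos (k : ℕ) : 0 < sq k := by
  unfold sq
  positivity

theorem sq_le (k : ℕ) : sq k ≤ 1 := by
  unfold sq
  rw [div_le_one (by positivity)]
  have : (0 : ℝ) ≤ k := Nat.cast_nonneg k
  linarith

theorem sq_tendsto : Tendsto sq atTop (𝓝 0) := tendsto_one_div_add_atTop_nhds_zero_nat

section
variable {n : ℕ} {X : Type} [TopologicalSpace X] [ChartedSpace (Cm n) X] {E : Type}
  [TopologicalSpace E] {p : E → X} {Γ : Type} [Group Γ] [MulAction Γ E]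
  {w : Chart n X → Cm n → Matrix (Fin n) (Fin n) ℂ} {q : ℕ} {F : E → Cm q} {c : Γ → Cm q}
  {h : E → ℂ}

namespace Cv
variable {K : Ctx n p w F c h} (D : Cv K)

/-- normalised -/
def Sn (k : ℕ) (a : Pt (n := n) p) (ξ : Fin q → Cm n) (z : Cm n) : L2 K.Lam :=
  (D.M (sq k) : ℂ)⁻¹ • K.Sv (sq k) a ξ z

/-- normalised -/
def Tn (k : ℕ) (y : E) : L2 K.Lam := (D.M (sq k) : ℂ)⁻¹ • K.Tv (sq k) y

variable [IsManifold 𝓘(ℂ, Cm n) ω X]

theorem Sn_eq (k : ℕ) (a : Pt (n := n) p) (ξ : Fin q → Cm n) {z : Cm n} (hz : z ∈ a.ε.target)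
    (hr : Reg (n := n) p F (a.ε.symm z)) :
    D.Sn k a ξ z = dt F a.ε z ξ • D.Tn k (a.ε.symm z) := by
  rw [Sn, Tn, K.S_eq a ξ (sq_pos k) hz hr, smul_comm]

theorem Sn_bound (a : Pt (n := n) p) (ξ : Fin q → Cm n) {z : Cm n} (hz : z ∈ a.ε.target) :
    ∃ r > 0, ∃ C : ℝ, 0 ≤ C ∧ ball z r ⊆ a.ε.target ∧ ∀ k : ℕ,
      DifferentiableOn ℂ (D.Sn k a ξ) (ball z r) ∧ ∀ z' ∈ ball z r, ‖D.Sn k a ξ z'‖ ≤ C := by
  obtain ⟨r, hr, C, hC, hsub, h1⟩ := D.loc_bound a ξ hz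
  refine ⟨r, hr, C, hC, hsub, fun k => ?_⟩
  obtain ⟨h2, h3⟩ := h1 (sq k) (sq_pos k) (sq_le k)
  refine ⟨(h2.const_smul ((D.M (sq k) : ℂ)⁻¹)).congr fun _ _ => rfl, fun z' hz' => ?_⟩
  have hM := D.M_pos (sq_pos k)
  rw [Sn, norm_smul, norm_inv, Complex.norm_real, Real.norm_of_nonneg hM.le]
  calc (D.M (sq k))⁻¹ * ‖K.Sv (sq k) a ξ z'‖ ≤ (D.M (sq k))⁻¹ * (C * D.M (sq k)) :=
        mul_le_mul_of_nonneg_left (h3 z' hz') (inv_nonneg.2 hM.le)
    _ = C := by field_simp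

theorem Tn_bound {y : E} (hr : Reg (n := n) p F y) : ∃ C : ℝ, ∀ k, ‖D.Tn k y‖ ≤ C := by
  obtain ⟨e, ε, hε, hyε, -, -⟩ := exists_ch (n := n) K.gal.cov y univ_mem
  let a : Pt (n := n) p := ⟨e, ε, hε⟩
  have hz : ε y ∈ a.ε.target := ε.map_source hyε
  have hy : a.ε.symm (ε y) = y := ε.left_inv hyε
  obtain ⟨I, hI⟩ := K.exists_dt a hz (by rwa [hy])
  obtain ⟨r, hr0, C, hC, -, h1⟩ := D.Sn_bound a (sg I) hz
  refine ⟨‖dt F a.ε (ε y) (sg I)‖⁻¹ * C, fun k => ?_⟩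
  have h2 := (h1 k).2 _ (mem_ball_self hr0)
  rw [D.Sn_eq k a _ hz (by rwa [hy]), hy, norm_smul] at h2
  have h3 : 0 < ‖dt F a.ε (ε y) (sg I)‖ := norm_pos_iff.2 hI
  rw [inv_mul_eq_div, le_div_iff₀ h3, mul_comm]
  exact h2

variable (U : Ultrafilter ℕ)

/-- the limit -/
def h1 (y : E) : UP (fun _ : ℕ => L2 K.Lam) U := H366.mk U fun k => D.Tn k y

/-- the limit of the holomorphic families -/
def lm (a : Pt (n := n) p) (ξ : Fin q → Cm n) (z : Cm n) : UP (fun _ : ℕ => L2 K.Lam) U :=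
  H366.mk U fun k => D.Sn k a ξ z

theorem bd_T {y : E} (hr : Reg (n := n) p F y) : Bd (H := fun _ : ℕ => L2 K.Lam) fun k => D.Tn k y :=
  D.Tn_bound hr

theorem bd_S (a : Pt (n := n) p) (ξ : Fin q → Cm n) {z : Cm n} (hz : z ∈ a.ε.target) :
    Bd (H := fun _ : ℕ => L2 K.Lam) fun k => D.Sn k a ξ z := by
  obtain ⟨r, hr0, C, hC, -, h1⟩ := D.Sn_bound a ξ hz
  exact ⟨C, fun k => (h1 k).2 _ (mem_ball_self hr0)⟩

theorem lm_an (a : Pt (n := n) p) (ξ : Fin q → Cm n) {z : Cm n} (hz : z ∈ a.ε.target) :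
    AnalyticAt ℂ (D.lm U a ξ) z := by
  obtain ⟨r, hr0, C, hC, -, h1⟩ := D.Sn_bound a ξ hz
  exact (mk_analytic (H := fun _ : ℕ => L2 K.Lam) (U := U) (φ := fun k => D.Sn k a ξ)
    (fun k => (h1 k).1) (fun k => (h1 k).2) (mem_ball_self hr0)).1

theorem lm_eq (a : Pt (n := n) p) (ξ : Fin q → Cm n) {z : Cm n} (hz : z ∈ a.ε.target)
    (hr : Reg (n := n) p F (a.ε.symm z)) :
    D.lm U a ξ z = dt F a.ε z ξ • D.h1 U (a.ε.symm z) := by
  rw [lm, h1, ← mk_smul _ (D.bd_T hr)]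
  congr 1
  funext k
  exact D.Sn_eq k a ξ hz hr

theorem h1_ext (y : E) (e : Chart n X) (f : Cm n → Cm q) (he : At e (p y))
    (hev : ∀ᶠ y' in 𝓝 y, F y' = f (e (p y'))) (ξ : Fin q → Cm n) :
    ∃ φ : Cm n → UP (fun _ : ℕ => L2 K.Lam) U,
      AnalyticAt ℂ φ (e (p y)) ∧ ∀ᶠ y' in 𝓝 y, Reg (n := n) p F y' →
        (Matrix.of fun i j => fderiv ℂ f (e (p y')) (ξ j) i).det • D.h1 U y' = φ (e (p y')) := by
  obtain ⟨ε, hε, hyε⟩ := exists_ch' K.gal.cov he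
  let a : Pt (n := n) p := ⟨e, ε, hε⟩
  have hz : ε y ∈ a.ε.target := ε.map_source hyε
  refine ⟨D.lm U a ξ, ?_, ?_⟩
  · rw [← hε.eq y hyε]
    exact D.lm_an U a ξ hz
  · have h2 : ∀ᶠ z in 𝓝 (ε y), (F ∘ ε.symm) =ᶠ[𝓝 z] f :=
      eventually_eventually_nhds.2 (hε.ev_of hyε hev)
    have hc : Tendsto ε (𝓝 y) (𝓝 (ε y)) := ε.continuousAt hyε
    filter_upwards [hc.eventually h2, ε.open_source.mem_nhds hyε] with y' h3 h4 h5
    have h6 : a.ε.symm (ε y') = y' := ε.left_inv h4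
    rw [← hε.eq y' h4, D.lm_eq U a ξ (ε.map_source h4) (by rwa [h6]), h6, dt]
    congr 3
    ext i j
    rw [h3.fderiv_eq]

omit [IsManifold 𝓘(ℂ, Cm n) ω X] in
/-- the families depend only on `F` -/
theorem coord (k : ℕ) (a : Pt (n := n) p) {z : Cm n} (hz : z ∈ a.ε.target)
    (hr : Reg (n := n) p F (a.ε.symm z)) (l : K.Lam) {t : Cm n}
    (ht : fderiv ℂ (F ∘ a.ε.symm) z t = 0) :
    fderiv ℂ (fun z' => (D.M (sq k) : ℂ)⁻¹ * ((K.wt (sq k) l : ℂ) * h (K.sc l • a.ε.symm z'))) z t = 0 := by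
  set y := a.ε.symm z with hy
  obtain ⟨f, hf, hev⟩ := K.ex.loc (K.sc l • y) (K.reg_smul.2 hr)
  have hc : Tendsto (fun z' => K.sc l • a.ε.symm z') (𝓝 z) (𝓝 (K.sc l • y)) :=
    ((K.gal.cont _).tendsto y).comp (symm_tendsto hz)
  have h2 : (fun z' => (D.M (sq k) : ℂ)⁻¹ * ((K.wt (sq k) l : ℂ) * h (K.sc l • a.ε.symm z')))
      =ᶠ[𝓝 z] fun z' => (D.M (sq k) : ℂ)⁻¹ * ((K.wt (sq k) l : ℂ) *
        f ((F ∘ a.ε.symm) z' + c (K.sc l))) := by
    filter_upwards [hc.eventually hev] with z' h3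
    rw [h3, K.per.equiv]
    rfl
  rw [h2.fderiv_eq]
  have hd1 : HasFDerivAt (fun z' => (F ∘ a.ε.symm) z' + c (K.sc l))
      (fderiv ℂ (F ∘ a.ε.symm) z) z :=
    (F_an K.per a.is hz).differentiableAt.hasFDerivAt.add_const _
  have hd2 : HasFDerivAt f (fderiv ℂ f ((F ∘ a.ε.symm) z + c (K.sc l)))
      ((F ∘ a.ε.symm) z + c (K.sc l)) := by
    have : F (K.sc l • y) = (F ∘ a.ε.symm) z + c (K.sc l) := by
      rw [K.per.equiv]; rfl
    rw [this] at hf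
    exact hf.differentiableAt.hasFDerivAt
  have hd3 := ((hd2.comp z hd1).const_mul (K.wt (sq k) l : ℂ)).const_mul ((D.M (sq k) : ℂ)⁻¹)
  have hd4 : HasFDerivAt (fun z' => (D.M (sq k) : ℂ)⁻¹ * ((K.wt (sq k) l : ℂ) *
        f ((F ∘ a.ε.symm) z' + c (K.sc l)))) _ z := hd3
  rw [hd4.fderiv]
  simp [ht]

theorem h1_loc (y : E) (hr : Reg (n := n) p F y) :
    ∃ f : Cm q → UP (fun _ : ℕ => L2 K.Lam) U, AnalyticAt ℂ f (F y) ∧
      ∀ᶠ y' in 𝓝 y, D.h1 U y' = f (F y') := by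
  classical
  obtain ⟨B, hB⟩ := K.per.hol
  obtain ⟨e, ε, hε, hyε, -, -⟩ := exists_ch (n := n) K.gal.cov y univ_mem
  let a : Pt (n := n) p := ⟨e, ε, hε⟩
  have hz : ε y ∈ a.ε.target := ε.map_source hyε
  have hy : a.ε.symm (ε y) = y := ε.left_inv hyε
  obtain ⟨I, hI⟩ := K.exists_dt a hz (by rwa [hy])
  obtain ⟨r₁, hr₁, C, hC, hsub, hS⟩ := D.Sn_bound a (sg I) hz
  have hdan := dt_an K.per a.is hz (sg I)
  have hev1 : ∀ᶠ z in 𝓝 (ε y), ‖dt F a.ε (ε y) (sg I)‖ / 2 < ‖dt F a.ε z (sg I)‖ := by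
    refine hdan.continuousAt.norm.eventually (lt_mem_nhds ?_)
    have : 0 < ‖dt F a.ε (ε y) (sg I)‖ := norm_pos_iff.2 hI
    linarith
  have hev2 : ∀ᶠ z in 𝓝 (ε y), Reg (n := n) p F (a.ε.symm z) := by
    have h3 : Tendsto a.ε.symm (𝓝 (ε y)) (𝓝 y) := by
      have := symm_tendsto hz
      rwa [hy] at this
    exact h3.eventually ((reg_open K.gal.cov hB).mem_nhds hr)
  obtain ⟨r₂, hr₂, hb⟩ := Metric.eventually_nhds_iff_ball.1 (hev1.and hev2)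
  set r := min r₁ r₂ with hrdef
  have hr0 : 0 < r := lt_min hr₁ hr₂
  have hs1 : ball (ε y) r ⊆ ball (ε y) r₁ := ball_subset_ball (min_le_left _ _)
  have hs2 : ball (ε y) r ⊆ ball (ε y) r₂ := ball_subset_ball (min_le_right _ _)
  set δ := ‖dt F a.ε (ε y) (sg I)‖ / 2 with hδ
  have hδ0 : 0 < δ := half_pos (norm_pos_iff.2 hI)
  -- the functions
  set v : ℕ → Cm n → L2 K.Lam := fun k z => (dt F a.ε z (sg I))⁻¹ • D.Sn k a (sg I) z with hv
  have hne : ∀ z ∈ ball (ε y) r, dt F a.ε z (sg I) ≠ 0 := fun z hz' =>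
    norm_pos_iff.1 (hδ0.trans (hb z (hs2 hz')).1)
  have hvT : ∀ k, ∀ z ∈ ball (ε y) r, v k z = D.Tn k (a.ε.symm z) := by
    intro k z hz'
    rw [hv]
    simp only
    rw [D.Sn_eq k a _ (hsub (hs1 hz')) (hb z (hs2 hz')).2, smul_smul,
      inv_mul_cancel₀ (hne z hz'), one_smul]
  have hvd : ∀ k, DifferentiableOn ℂ (v k) (ball (ε y) r) := by
    intro k z hz'
    have h3 : DifferentiableAt ℂ (fun z => (dt F a.ε z (sg I))⁻¹) z :=
      (dt_an K.per a.is (hsub (hs1 hz')) (sg I)).differentiableAt.inv (hne z hz')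
    exact h3.differentiableWithinAt.smul (((hS k).1.mono hs1) z hz')
  have hvb : ∀ k, ∀ z ∈ ball (ε y) r, ‖v k z‖ ≤ δ⁻¹ * C := by
    intro k z hz'
    rw [hv]
    simp only
    rw [norm_smul, norm_inv]
    refine mul_le_mul ?_ ((hS k).2 z (hs1 hz')) (norm_nonneg _) (inv_nonneg.2 hδ0.le)
    exact inv_anti₀ hδ0 (hb z (hs2 hz')).1.le
  have hmk := fun z hz' => mk_analytic (H := fun _ : ℕ => L2 K.Lam) (U := U) (φ := v) hvd hvb
    (z := z) hz'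
  set G : Cm n → UP (fun _ : ℕ => L2 K.Lam) U := fun z => H366.mk U fun k => v k z with hG
  have hker : ∀ᶠ z in 𝓝 (ε y), ∀ t, fderiv ℂ (F ∘ a.ε.symm) z t = 0 → fderiv ℂ G z t = 0 := by
    filter_upwards [ball_mem_nhds (ε y) hr0] with z hz' t ht
    rw [(hmk z hz').2 t]
    have h3 : (fun k => fderiv ℂ (v k) z t) = (0 : ∀ k : ℕ, L2 K.Lam) := by
      funext k
      refine lp.ext (funext fun l => ?_)
      have h4 : DifferentiableAt ℂ (v k) z :=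
        (hvd k).differentiableAt (isOpen_ball.mem_nhds hz')
      have h5 : (fderiv ℂ (v k) z t : L2 K.Lam) l = fderiv ℂ (fun z' => v k z' l) z t := by
        have h6 := ((lp.evalCLM ℂ (fun _ : K.Lam => ℂ) 2 l).hasFDerivAt.comp z
          h4.hasFDerivAt).fderiv
        have h7 := DFunLike.congr_fun h6 t
        exact h7.symm
      rw [h5]
      have h8 : (fun z' => v k z' l) =ᶠ[𝓝 z] fun z' => (D.M (sq k) : ℂ)⁻¹ *
          ((K.wt (sq k) l : ℂ) * h (K.sc l • a.ε.symm z')) := by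
        filter_upwards [isOpen_ball.mem_nhds hz'] with z' hz''
        rw [hvT k z' hz'', Tn, lp.coeFn_smul, Pi.smul_apply, Ctx.Tv,
          vec_apply (K.mem_T (sq_pos k) (hb z' (hs2 hz'')).2)]
        rfl
      rw [h8.fderiv_eq, D.coord k a (hsub (hs1 hz')) (hb z (hs2 hz')).2 l ht]
      rfl
    rw [h3]
    exact mk_zero
  have hsurj : Function.Surjective (fderiv ℂ (F ∘ a.ε.symm) (ε y)) :=
    (hε.reg_iff K.gal.cov hB hyε).1 hr
  obtain ⟨f, hf1, hf2⟩ := factor (F_an K.per a.is hz) hsurj (hmk (ε y) (mem_ball_self hr0)).1 hker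
  have hFy : (F ∘ a.ε.symm) (ε y) = F y := by
    rw [Function.comp_apply, hy]
  rw [hFy] at hf1
  refine ⟨f, hf1, ?_⟩
  have hc : Tendsto ε (𝓝 y) (𝓝 (ε y)) := ε.continuousAt hyε
  filter_upwards [hc.eventually hf2, hc.eventually (ball_mem_nhds (ε y) hr0),
    ε.open_source.mem_nhds hyε] with y' h3 h4 h5
  have h6 : a.ε.symm (ε y') = y' := ε.left_inv h5
  rw [Function.comp_apply, h6] at h3
  rw [← h3, h1]
  congr 1
  funext k
  rw [hvT k _ h4, h6]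

theorem h1_equiv (hU : (U : Filter ℕ) ≤ atTop) (g : Γ) {y : E} (hr : Reg (n := n) p F y) :
    D.h1 U (g • y) = upIso U (fun _ : ℕ => K.sh (K.pe g)) (D.h1 U y) := by
  obtain ⟨C, hC⟩ := D.Tn_bound hr
  rw [h1, h1, upIso_mk _ (D.bd_T hr), mk_eq_iff (D.bd_T (K.reg_smul.2 hr)) (Bd.iso _ (D.bd_T hr))]
  have key : ∀ k, ‖D.Tn k (g • y) - K.sh (K.pe g) (D.Tn k y)‖ ≤
      (Real.exp (sq k * ‖c g‖) - 1) * C := by
    intro k
    have h2 := K.T_diff (sq_pos k) g hr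
    have hM := D.M_pos (sq_pos k)
    have h3 : D.Tn k (g • y) - K.sh (K.pe g) (D.Tn k y) =
        (D.M (sq k) : ℂ)⁻¹ • (K.Tv (sq k) (g • y) - K.sh (K.pe g) (K.Tv (sq k) y)) := by
      rw [Tn, Tn, map_smul, smul_sub]
    have h4 : ‖D.Tn k y‖ = (D.M (sq k))⁻¹ * ‖K.Tv (sq k) y‖ := by
      rw [Tn, norm_smul, norm_inv, Complex.norm_real, Real.norm_of_nonneg hM.le]
    rw [h3, norm_smul, norm_inv, Complex.norm_real, Real.norm_of_nonneg hM.le]
    have h5 : 1 ≤ Real.exp (sq k * ‖c g‖) :=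
      Real.one_le_exp (mul_nonneg (sq_pos k).le (norm_nonneg _))
    calc _ ≤ (D.M (sq k))⁻¹ * ((Real.exp (sq k * ‖c g‖) - 1) * ‖K.Tv (sq k) y‖) :=
          mul_le_mul_of_nonneg_left h2 (inv_nonneg.2 hM.le)
      _ = (Real.exp (sq k * ‖c g‖) - 1) * ‖D.Tn k y‖ := by rw [h4]; ring
      _ ≤ _ := mul_le_mul_of_nonneg_left (hC k) (by linarith)
  have hlim : Tendsto (fun k => (Real.exp (sq k * ‖c g‖) - 1) * C) U (𝓝 0) := by
    have h5 : Tendsto (fun k => (Real.exp (sq k * ‖c g‖) - 1) * C) atTop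
        (𝓝 ((Real.exp (0 * ‖c g‖) - 1) * C)) :=
      (((Real.continuous_exp.tendsto _).comp (sq_tendsto.mul_const _)).sub_const 1).mul_const C
    rw [zero_mul, Real.exp_zero, sub_self, zero_mul] at h5
    exact h5.mono_left hU
  exact squeeze_zero (fun k => norm_nonneg _) key hlim

theorem h1_ker (g : Γ) (hg : c g = 0) {y : E} (hr : Reg (n := n) p F y) :
    D.h1 U (g • y) = D.h1 U y := by
  rw [h1, h1]
  congr 1
  funext k
  rw [Tn, Tn]
  congr 1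
  refine lp.ext (funext fun l => ?_)
  have h0 : K.pe g = 0 := Subtype.ext hg
  rw [K.T_smul (sq_pos k) g hr, h0, add_zero, Ctx.Tv, vec_apply (K.mem_T (sq_pos k) hr)]

theorem sum_T {N : ℕ} {z : Fin (N + 1) → E} (hzr : ∀ i, Reg (n := n) p F (z i))
    (htr : ∀ g : Γ, ∑ i, h (g • z i) = 0) (k : ℕ) : ∑ i, D.Tn k (z i) = 0 := by
  refine lp.ext (funext fun l => ?_)
  rw [lp.coeFn_sum, Finset.sum_apply]
  have h2 : ∀ i, (D.Tn k (z i) : L2 K.Lam) l =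
      (D.M (sq k) : ℂ)⁻¹ * ((K.wt (sq k) l : ℂ) * h (K.sc l • z i)) := by
    intro i
    rw [Tn, lp.coeFn_smul, Pi.smul_apply, Ctx.Tv, vec_apply (K.mem_T (sq_pos k) (hzr i))]
    rfl
  simp_rw [h2, ← Finset.mul_sum, htr]
  simp

theorem nonconst : ∃ y y', Reg (n := n) p F y ∧
    Reg (n := n) p F y' ∧ D.h1 U y ≠ D.h1 U y' := by
  classical
  by_contra hcon
  push Not at hcon
  obtain ⟨N, z, hzr, htr⟩ := K.ex.trace
  have h0 : ∀ y, Reg (n := n) p F y → D.h1 U y = 0 := by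
    intro y hy
    have h2 := mk_sum (U := U) (H := fun _ : ℕ => L2 K.Lam) Finset.univ
      (x := fun (i : Fin (N + 1)) k => D.Tn k (z i)) (fun i _ => D.bd_T (hzr i))
    have h3 : (∑ i : Fin (N + 1), (fun k => D.Tn k (z i)) : ∀ _ : ℕ, L2 K.Lam) = 0 := by
      funext k
      rw [Finset.sum_apply]
      exact D.sum_T hzr htr k
    rw [h3, mk_zero] at h2
    have h4 : ∑ i : Fin (N + 1), H366.mk (H := fun _ : ℕ => L2 K.Lam) U (fun k => D.Tn k (z i)) =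
        ∑ _i : Fin (N + 1), D.h1 U y :=
      Finset.sum_congr rfl fun i _ => hcon (z i) y (hzr i) hy
    rw [h4, Finset.sum_const, Finset.card_univ, Fintype.card_fin, ← Nat.cast_smul_eq_nsmul ℂ] at h2
    have h5 : ((N + 1 : ℕ) : ℂ) ≠ 0 := Nat.cast_ne_zero.2 (Nat.succ_ne_zero N)
    exact (smul_eq_zero.1 h2.symm).resolve_left h5
  have hlm : ∀ (a : Pt (n := n) p) (ξ : Fin q → Cm n) {z : Cm n}, z ∈ a.ε.target →
      D.lm U a ξ z = 0 := by
    intro a ξ z hz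
    refine eq_ext (K.tgt a) a.ε.open_target (Ψ := fun _ => 0)
      (fun x hx => D.lm_an U a ξ hx) (fun x _ => analyticAt_const) (fun x hx hxA => ?_) hz
    rw [D.lm_eq U a ξ hx hxA.2, h0 _ hxA.2, smul_zero]
  -- choice of the points
  choose y hy I x hx hn using fun k => D.near_M (sq_pos k)
  have hn' : ∀ k, 1 / 2 < ‖D.Sn k (D.a (y k)) (sg (I k)) (x k)‖ := by
    intro k
    have hM := D.M_pos (sq_pos k)
    rw [Sn, norm_smul, norm_inv, Complex.norm_real, Real.norm_of_nonneg hM.le]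
    rw [inv_mul_eq_div, lt_div_iff₀ hM]
    have := hn k
    linarith
  obtain ⟨⟨⟨y₀, hy₀⟩, I₀⟩, h2⟩ : ∃ b : {y // y ∈ D.t} × (Fin q → Fin n),
      ∀ᶠ k in (U : Filter ℕ), (⟨y k, hy k⟩, I k) = b := by
    obtain ⟨b, hb⟩ := (U.map fun k => ((⟨y k, hy k⟩ : {y // y ∈ D.t}), I k)).eq_pure_of_finite
    refine ⟨b, ?_⟩
    have h3 : {b} ∈ U.map fun k => ((⟨y k, hy k⟩ : {y // y ∈ D.t}), I k) := by
      rw [hb]
      exact Ultrafilter.mem_pure.2 rfl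
    exact h3
  have h3 : ∀ᶠ k in (U : Filter ℕ), y k = y₀ ∧ I k = I₀ := by
    filter_upwards [h2] with k hk
    rw [Prod.mk.injEq, Subtype.mk.injEq] at hk
    exact hk
  set a := D.a y₀ with ha
  have h4 : closedBall (a.ε y₀) (D.r y₀) ∈ U.map x := by
    have : ∀ᶠ k in (U : Filter ℕ), x k ∈ closedBall (a.ε y₀) (D.r y₀) := by
      filter_upwards [h3] with k hk
      have := hx k
      rw [hk.1] at this
      exact ball_subset_closedBall this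
    exact this
  obtain ⟨z₀, hz₀, hz₁⟩ := (isCompact_closedBall (a.ε y₀) (D.r y₀)).ultrafilter_le_nhds' _ h4
  have hzt : z₀ ∈ a.ε.target := D.sub y₀ hz₀
  have htend : Tendsto x U (𝓝 z₀) := hz₁
  obtain ⟨r, hr, C, hC, hsub, hS⟩ := D.Sn_bound a (sg I₀) hzt
  -- at `z₀`
  have h5 : ∀ᶠ k in (U : Filter ℕ), 1 / 4 ≤ ‖D.Sn k a (sg I₀) z₀‖ := by
    have h6 : Tendsto (fun k => C / (r - r / 2) * ‖x k - z₀‖) U (𝓝 0) := by
      have := ((htend.sub_const z₀).norm).const_mul (C / (r - r / 2))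
      simpa using this
    filter_upwards [h3, htend.eventually (closedBall_mem_nhds z₀ (half_pos hr)),
      h6.eventually (gt_mem_nhds (show (0 : ℝ) < 1 / 4 by norm_num))] with k hk hxk h7
    have h8 := lip_ball (hS k).1 (hS k).2 (half_lt_self hr) hxk
      (mem_closedBall_self (half_pos hr).le)
    have h9 := hn' k
    rw [hk.1, hk.2] at h9
    have h10 := norm_sub_norm_le (D.Sn k a (sg I₀) (x k)) (D.Sn k a (sg I₀) z₀)
    linarith
  have h6 := norm_mk (U := U) (D.bd_S a (sg I₀) hzt)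
  have h7 : H366.mk (H := fun _ : ℕ => L2 K.Lam) U (fun k => D.Sn k a (sg I₀) z₀) = 0 :=
    hlm a (sg I₀) hzt
  rw [h7, norm_zero] at h6
  have h8 : (1 / 4 : ℝ) ≤ 0 := ge_of_tendsto h6 h5
  norm_num at h8

end Cv

end

/-- `LimStmt` with the invariance under the kernel of the periods -/
theorem limStmt' (n q : ℕ) (X : Type) [TopologicalSpace X] [T2Space X] [CompactSpace X]
    [ConnectedSpace X] [ChartedSpace (Cm n) X] [IsManifold 𝓘(ℂ, Cm n) ω X]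
    (w : Chart n X → Cm n → Matrix (Fin n) (Fin n) ℂ)
    (E Γ : Type) [TopologicalSpace E] [ConnectedSpace E] [Group Γ] [MulAction Γ E]
    (p : E → X) (hp : IsGalois Γ p) (F : E → Cm q) (c : Γ → Cm q) (hA : Per p w F c) (h : E → ℂ)
    (hh : ExFun n Γ p F c h) :
    ∃ (W : Type) (_ : NormedAddCommGroup W) (_ : InnerProductSpace ℂ W) (_ : CompleteSpace W)
      (h₁ : E → W), SheetHol n p F h₁ ∧
      (∀ g : Γ, ∃ U : W →ₗᵢ[ℂ] W, ∀ y, Reg (n := n) p F y → h₁ (g • y) = U (h₁ y)) ∧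
      (∃ y y', Reg (n := n) p F y ∧ Reg (n := n) p F y' ∧ h₁ y ≠ h₁ y') ∧
      ∀ g : Γ, c g = 0 → ∀ y, Reg (n := n) p F y → h₁ (g • y) = h₁ y := by
  have hne : Nonempty E := inferInstance
  have hdense : Dense {y : E | Reg (n := n) p F y} := by
    obtain ⟨y, hy, -⟩ := hh.ne
    exact dense_reg hp hA ⟨y, hy⟩
  let K : Ctx n p w F c h := ⟨hp, hA, hh, hdense, hne⟩
  obtain ⟨D⟩ := K.exists_cv
  let U : Ultrafilter ℕ := hyperfilter ℕ
  have hU : (U : Filter ℕ) ≤ atTop := Nat.hyperfilter_le_atTop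
  refine ⟨UP (fun _ : ℕ => L2 K.Lam) U, inferInstance, inferInstance, inferInstance, D.h1 U,
    ⟨fun y hy => D.h1_loc U y hy, fun y e f he _ hev ξ => D.h1_ext U y e f he hev ξ⟩,
    fun g => ⟨(upIso U fun _ : ℕ => K.sh (K.pe g)).toLinearIsometry,
      fun y hy => D.h1_equiv U hU g hy⟩, D.nonconst U, fun g hg y hy => D.h1_ker U g hg hy⟩

theorem limStmt : LimStmt := by
  intro n q X _ _ _ _ _ _ w E Γ _ _ _ _ p hp F c hA h hh
  obtain ⟨W, i1, i2, i3, h₁, h1, h2, h3, -⟩ := limStmt' n q X w E Γ p hp F c hA h hh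
  exact ⟨W, i1, i2, i3, h₁, h1, h2, h3⟩

end Vale.Agent.P284.H661.Lim
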