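import Vale.Agent.P284.H366.SL3
import Vale.Agent.P281.MF.Hol
import Mathlib.Algebra.Module.ZLattice.Summable

/-!
# P284, MF(I), the limit: generic lemmas
-/

open scoped ContDiff Topology ComplexConjugate
open MeasureTheory Set Filter Metric

noncomputable section

namespace Vale.Agent.P284.H661.Lim

open Vale.Agent.P272.K Vale.Agent.P284.H366

/-! ### extension from a dense set -/

section ext
variable {n : ℕ} {W : Type*} [NormedAddCommGroup W] [NormedSpace ℂ W] {U A : Set (Cm n)}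
  {f : Cm n → W}

theorem ext_eq (hA : U ⊆ closure A) (hU : IsOpen U) {φ : Cm n → W} {z : Cm n} (hz : z ∈ U)
    (hφ : AnalyticAt ℂ φ z) (hev : ∀ᶠ y in 𝓝 z, y ∈ A → f y = φ y) :
    extendFrom A f =ᶠ[𝓝 z] φ := by
  have : CompleteSpace (Cm n) := inferInstance
  filter_upwards [hU.mem_nhds hz, hφ.eventually_continuousAt,
    eventually_eventually_nhds.2 hev] with y hy h1 h2
  refine extendFrom_eq (hA hy) ?_
  refine Tendsto.congr' ?_ (h1.tendsto.mono_left nhdsWithin_le_nhds)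
  filter_upwards [mem_nhdsWithin_of_mem_nhds h2, self_mem_nhdsWithin] with x hx hxA
  exact (hx hxA).symm

theorem exists_ext (hU : IsOpen U) (hA : U ⊆ closure A)
    (h : ∀ z ∈ U, ∃ φ : Cm n → W, AnalyticAt ℂ φ z ∧ ∀ᶠ y in 𝓝 z, y ∈ A → f y = φ y) :
    ∃ Φ : Cm n → W, (∀ z ∈ U, AnalyticAt ℂ Φ z) ∧ ∀ z ∈ U, z ∈ A → Φ z = f z := by
  refine ⟨extendFrom A f, fun z hz => ?_, fun z hz hzA => ?_⟩
  · obtain ⟨φ, h1, h2⟩ := h z hz
    exact h1.congr (ext_eq hA hU hz h1 h2).symm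
  · obtain ⟨φ, h1, h2⟩ := h z hz
    rw [(ext_eq hA hU hz h1 h2).eq_of_nhds, h2.self_of_nhds hzA]

theorem bound_ext (hU : IsOpen U) (hA : U ⊆ closure A) {Φ : Cm n → W}
    (h1 : ∀ z ∈ U, AnalyticAt ℂ Φ z) {C : ℝ} (h2 : ∀ z ∈ U, z ∈ A → ‖Φ z‖ ≤ C) {z : Cm n}
    (hz : z ∈ U) : ‖Φ z‖ ≤ C := by
  have := mem_closure_iff_nhdsWithin_neBot.mp (hA hz)
  have h3 : Tendsto (fun y => ‖Φ y‖) (𝓝[A] z) (𝓝 ‖Φ z‖) :=
    (h1 z hz).continuousAt.norm.tendsto.mono_left nhdsWithin_le_nhds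
  refine le_of_tendsto h3 ?_
  filter_upwards [mem_nhdsWithin_of_mem_nhds (hU.mem_nhds hz), self_mem_nhdsWithin] with y hy hyA
  exact h2 y hy hyA

theorem eq_ext (hA : U ⊆ closure A) {Φ Ψ : Cm n → W} (hU : IsOpen U)
    (h1 : ∀ z ∈ U, AnalyticAt ℂ Φ z) (h1' : ∀ z ∈ U, AnalyticAt ℂ Ψ z)
    (h2 : ∀ z ∈ U, z ∈ A → Φ z = Ψ z) {z : Cm n} (hz : z ∈ U) : Φ z = Ψ z := by
  have := mem_closure_iff_nhdsWithin_neBot.mp (hA hz)
  refine tendsto_nhds_unique_of_eventuallyEq
    ((h1 z hz).continuousAt.tendsto.mono_left (nhdsWithin_le_nhds (s := A)))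
    ((h1' z hz).continuousAt.tendsto.mono_left nhdsWithin_le_nhds) ?_
  filter_upwards [mem_nhdsWithin_of_mem_nhds (hU.mem_nhds hz), self_mem_nhdsWithin] with y hy hyA
  exact h2 y hy hyA

end ext

/-! ### bounded holomorphic sequences -/

section vb
variable {n : ℕ} {H : ℕ → Type} [∀ k, NormedAddCommGroup (H k)] [∀ k, InnerProductSpace ℂ (H k)]
  [∀ k, CompleteSpace (H k)] {U : Ultrafilter ℕ}

theorem cauchy_ball {G : Type*} [NormedAddCommGroup G] [NormedSpace ℂ G] {f : Cm n → G}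
    {c z : Cm n} {R r B : ℝ} (hd : DifferentiableOn ℂ f (ball c R))
    (hb : ∀ z ∈ ball c R, ‖f z‖ ≤ B) (hr : r < R) (hz : z ∈ closedBall c r) :
    ‖fderiv ℂ f z‖ ≤ B / (R - r) := by
  have hsub : ball z (R - r) ⊆ ball c R := by
    refine ball_subset_ball' ?_
    rw [mem_closedBall] at hz
    linarith
  exact Vale.Agent.P281.MF.norm_fderiv_le_of_ball (by linarith) (hd.mono hsub)
    fun y hy => hb y (hsub hy)

theorem lip_ball {G : Type*} [NormedAddCommGroup G] [NormedSpace ℂ G] {f : Cm n → G}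
    {c : Cm n} {R r B : ℝ} (hd : DifferentiableOn ℂ f (ball c R))
    (hb : ∀ z ∈ ball c R, ‖f z‖ ≤ B) (hr : r < R) {z z' : Cm n} (hz : z ∈ closedBall c r)
    (hz' : z' ∈ closedBall c r) : ‖f z - f z'‖ ≤ B / (R - r) * ‖z - z'‖ := by
  refine (convex_closedBall c r).norm_image_sub_le_of_norm_fderiv_le (𝕜 := ℂ)
    (fun x hx => ?_) (fun x hx => cauchy_ball hd hb hr hx) hz' hz
  exact hd.differentiableAt (isOpen_ball.mem_nhds (closedBall_subset_ball hr hx))

theorem vb_of_hol {φ : ∀ k, Cm n → H k} {c : Cm n} {R B r : ℝ} (hB : 0 ≤ B)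
    (hd : ∀ k, DifferentiableOn ℂ (φ k) (ball c R)) (hb : ∀ k, ∀ z ∈ ball c R, ‖φ k z‖ ≤ B)
    (hr : r < R) : ∃ C, VB U c r C φ := by
  set s := (r + R) / 2 with hs
  have hrs : r < s := by rw [hs]; linarith
  have hsR : s < R := by rw [hs]; linarith
  set C₁ := B / (R - r) with hC₁
  set C₂ := B / (R - s) / (s - r) with hC₂
  have h1 : 0 ≤ C₁ := div_nonneg hB (by linarith)
  have h2 : 0 ≤ C₂ := div_nonneg (div_nonneg hB (by linarith)) (by linarith)
  have hdz : ∀ k, ∀ z ∈ ball c r, DifferentiableAt ℂ (φ k) z := fun k z hz =>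
    (hd k).differentiableAt (isOpen_ball.mem_nhds (ball_subset_ball hr.le hz))
  have hR : ∀ k, ∀ z ∈ ball c r, fderiv ℝ (φ k) z = (fderiv ℂ (φ k) z).restrictScalars ℝ :=
    fun k z hz => (hdz k z hz).fderiv_restrictScalars ℝ
  have hnorm : ∀ k (L : Cm n →L[ℂ] H k), ‖L.restrictScalars ℝ‖ = ‖L‖ := fun k L => rfl
  have hd' : ∀ k, DifferentiableOn ℂ (fderiv ℂ (φ k)) (ball c s) := fun k z hz =>
    (Vale.Agent.P281.MF.analyticAt_of_differentiableOn isOpen_ball (hd k)
      (ball_subset_ball hsR.le hz)).fderiv.differentiableAt.differentiableWithinAt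
  have hb' : ∀ k, ∀ z ∈ ball c s, ‖fderiv ℂ (φ k) z‖ ≤ B / (R - s) := fun k z hz =>
    cauchy_ball (hd k) (hb k) hsR (ball_subset_closedBall hz)
  refine ⟨B + C₁ + C₂, ?_, ?_, ?_, ?_, ?_, ?_, ?_⟩
  · positivity
  · intro k z hz
    have := hb k z (closedBall_subset_ball hr hz)
    linarith
  · intro k z hz z' hz'
    refine (lip_ball (hd k) (hb k) hr hz hz').trans ?_
    refine mul_le_mul_of_nonneg_right ?_ (norm_nonneg _)
    linarith
  · exact fun k z hz => (hdz k z hz).restrictScalars ℝ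
  · intro k z hz
    rw [hR k z hz, hnorm]
    have := cauchy_ball (hd k) (hb k) hr (ball_subset_closedBall hz)
    linarith
  · intro k z hz z' hz'
    rw [hR k z hz, hR k z' hz']
    have h3 : (fderiv ℂ (φ k) z).restrictScalars ℝ - (fderiv ℂ (φ k) z').restrictScalars ℝ =
        (fderiv ℂ (φ k) z - fderiv ℂ (φ k) z').restrictScalars ℝ := rfl
    rw [h3, hnorm]
    refine (lip_ball (hd' k) (hb' k) hrs (ball_subset_closedBall hz)
      (ball_subset_closedBall hz')).trans ?_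
    refine mul_le_mul_of_nonneg_right ?_ (norm_nonneg _)
    linarith
  · intro z hz t
    refine tendsto_const_nhds.congr fun k => ?_
    have h3 : DB (φ k) z t = 0 := by
      rw [DB_apply, hR k z hz]
      simp only [ContinuousLinearMap.coe_restrictScalars', map_smul]
      rw [smul_smul, Complex.I_mul_I]
      simp
    rw [h3, norm_zero]

/-- the ultraproduct of a locally bounded sequence of holomorphic maps is holomorphic -/
theorem mk_analytic {φ : ∀ k, Cm n → H k} {c : Cm n} {R B : ℝ}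
    (hd : ∀ k, DifferentiableOn ℂ (φ k) (ball c R)) (hb : ∀ k, ∀ z ∈ ball c R, ‖φ k z‖ ≤ B)
    {z : Cm n} (hz : z ∈ ball c R) :
    AnalyticAt ℂ (fun y => H366.mk U fun k => φ k y) z ∧
      ∀ t, fderiv ℂ (fun y => H366.mk U fun k => φ k y) z t =
        H366.mk U fun k => fderiv ℂ (φ k) z t := by
  have hB : 0 ≤ B := (norm_nonneg _).trans (hb 0 z hz)
  obtain ⟨r, hr1, hr2⟩ := exists_between (mem_ball.1 hz)
  obtain ⟨C, hC⟩ := vb_of_hol (U := U) hB hd hb hr2
  refine ⟨hC.analyticAt hr1, fun t => ?_⟩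
  rw [hC.fderiv hr1]
  congr 1
  funext k
  have : DifferentiableAt ℂ (φ k) z := (hd k).differentiableAt (isOpen_ball.mem_nhds hz)
  rw [this.fderiv_restrictScalars ℝ]
  rfl

end vb

/-! ### normally convergent series -/

section series
variable {n : ℕ} {G : Type*} [NormedAddCommGroup G] [NormedSpace ℂ G] [CompleteSpace G]
  {ι : Type*} {f : ι → Cm n → G} {u : ι → ℝ} {c : Cm n} {R : ℝ}

theorem diff_tsum (hu : Summable u) (hd : ∀ i, DifferentiableOn ℂ (f i) (ball c R))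
    (hb : ∀ i, ∀ z ∈ ball c R, ‖f i z‖ ≤ u i) :
    DifferentiableOn ℂ (fun z => ∑' i, f i z) (ball c R) := by
  intro x hx
  obtain ⟨r, hr1, hr2⟩ := exists_between (mem_ball.1 hx)
  have h1 := hasFDerivAt_tsum_of_isPreconnected (𝕜 := ℂ) (f := f)
    (f' := fun i => fderiv ℂ (f i)) (u := fun i => u i / (R - r)) (s := ball c r) (x₀ := x)
    (hu.div_const _) isOpen_ball (convex_ball c r).isPreconnected
    (fun i y hy => ((hd i).differentiableAt
      (isOpen_ball.mem_nhds (ball_subset_ball hr2.le hy))).hasFDerivAt)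
    (fun i y hy => cauchy_ball (hd i) (hb i) hr2 (ball_subset_closedBall hy)) hr1
    (Summable.of_norm_bounded hu fun i => hb i x hx) hr1
  exact h1.differentiableAt.differentiableWithinAt

end series

/-! ### factorisation through a submersion -/

section factor
variable {V W : Type*} [NormedAddCommGroup V] [NormedSpace ℂ V] [FiniteDimensional ℂ V]
  [NormedAddCommGroup W] [NormedSpace ℂ W]

omit [FiniteDimensional ℂ V] in
theorem const_seg {G : V → W} {a b : V}
    (h : ∀ t ∈ Icc (0 : ℝ) 1, ∃ G' : V →L[ℂ] W, HasFDerivAt G G' (a + (t : ℂ) • (b - a)) ∧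
      G' (b - a) = 0) : G b = G a := by
  have h1 : ∀ t ∈ Icc (0 : ℝ) 1,
      HasDerivWithinAt (fun t : ℝ => G (a + (t : ℂ) • (b - a))) ((fun _ => (0 : W)) t)
        (Icc 0 1) t := by
    intro t ht
    obtain ⟨G', hG, hG0⟩ := h t ht
    have e1 : HasDerivAt (fun t : ℝ => a + (t : ℂ) • (b - a)) (b - a) t := by
      have e2 : HasDerivAt (fun t : ℝ => (t : ℂ)) 1 t := Complex.ofRealCLM.hasDerivAt
      simpa using (e2.smul_const (b - a)).const_add a
    have e3 := (hG.restrictScalars ℝ).comp_hasDerivAt t e1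
    have e4 : (G'.restrictScalars ℝ) (b - a) = 0 := hG0
    rw [e4] at e3
    exact e3.hasDerivWithinAt
  have h2 := Convex.norm_image_sub_le_of_norm_hasDerivWithin_le (C := 0) h1
    (fun t _ => by simp) (convex_Icc 0 1) (left_mem_Icc.2 zero_le_one)
    (right_mem_Icc.2 zero_le_one)
  have h3 : G (a + ((1 : ℝ) : ℂ) • (b - a)) - G (a + ((0 : ℝ) : ℂ) • (b - a)) = 0 := by
    rw [← norm_le_zero_iff]
    simpa using h2
  have h4 : G (a + ((1 : ℝ) : ℂ) • (b - a)) = G b := by simp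
  have h5 : G (a + ((0 : ℝ) : ℂ) • (b - a)) = G a := by simp
  rw [h4, h5] at h3
  exact sub_eq_zero.1 h3

theorem factor [CompleteSpace W] {R : ℕ} {b : V → Fin R → ℂ} {F : V → W} {z₀ : V} (hban : AnalyticAt ℂ b z₀)
    (hsurj : Function.Surjective (fderiv ℂ b z₀)) (hF : AnalyticAt ℂ F z₀)
    (hker : ∀ᶠ z in 𝓝 z₀, ∀ v, fderiv ℂ b z v = 0 → fderiv ℂ F z v = 0) :
    ∃ F' : (Fin R → ℂ) → W, AnalyticAt ℂ F' (b z₀) ∧ ∀ᶠ z in 𝓝 z₀, F z = F' (b z) := by
  have : CompleteSpace V := FiniteDimensional.complete ℂ V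
  set L : V →L[ℂ] (Fin R → ℂ) := fderiv ℂ b z₀ with hLdef
  obtain ⟨s₀, hs₀⟩ := (L : V →ₗ[ℂ] (Fin R → ℂ)).exists_rightInverse_of_surjective
    (LinearMap.range_eq_top.2 hsurj)
  set s : (Fin R → ℂ) →L[ℂ] V := LinearMap.toContinuousLinearMap s₀ with hs
  have hLs' : ∀ w, L (s w) = w := fun w => DFunLike.congr_fun hs₀ w
  -- straightening
  set φ : V → V := fun z => (z - z₀) - s (L (z - z₀)) + s (b z - b z₀) with hφ
  have hφan : AnalyticAt ℂ φ z₀ := by
    have e1 : AnalyticAt ℂ (fun z : V => z - z₀) z₀ := analyticAt_id.sub analyticAt_const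
    exact (e1.sub (((s.comp L).analyticAt _).comp e1)).add
      ((s.analyticAt _).comp (hban.sub analyticAt_const))
  have hφd : HasFDerivAt φ (ContinuousLinearMap.id ℂ V) z₀ := by
    have e1 : HasFDerivAt (fun z : V => z - z₀) (ContinuousLinearMap.id ℂ V) z₀ :=
      (hasFDerivAt_id z₀).sub_const z₀
    have e2 : HasFDerivAt b L z₀ := hban.differentiableAt.hasFDerivAt
    have e3 := (e1.sub ((s.comp L).hasFDerivAt.comp z₀ e1)).add
      (s.hasFDerivAt.comp z₀ (e2.sub_const (b z₀)))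
    refine e3.congr_fderiv ?_
    ext v
    simp
  have hφs : HasStrictFDerivAt φ ((ContinuousLinearEquiv.refl ℂ V : V ≃L[ℂ] V) : V →L[ℂ] V) z₀ := by
    have := hφan.hasStrictFDerivAt
    rw [hφd.fderiv] at this
    exact this
  have hφ0 : φ z₀ = 0 := by simp [hφ]
  have hLφ : ∀ z, L (φ z) = b z - b z₀ := by
    intro z
    simp only [hφ, map_add, map_sub, hLs']
    abel
  set Φ := hφs.toOpenPartialHomeomorph φ with hΦ
  have hΦc : ∀ z, Φ z = φ z := fun z => rfl
  have hzs : z₀ ∈ Φ.source := hφs.mem_toOpenPartialHomeomorph_source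
  have h0t : (0 : V) ∈ Φ.target := by
    have := Φ.map_source hzs
    rwa [hΦc, hφ0] at this
  set χ := Φ.symm with hχ
  have hχan : AnalyticAt ℂ χ 0 := by
    have := Φ.analyticAt_symm' (i := ContinuousLinearEquiv.refl ℂ V) hzs hφan hφd.fderiv
    rwa [hΦc, hφ0] at this
  have hχ0 : χ 0 = z₀ := by
    have := Φ.left_inv hzs
    rwa [hΦc, hφ0] at this
  have hbχ : ∀ u ∈ Φ.target, b (χ u) = b z₀ + L u := by
    intro u hu
    have e1 := hLφ (χ u)
    have e2 : φ (χ u) = u := Φ.right_inv hu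
    rw [e2] at e1
    rw [e1]; abel
  have hgood : ∀ᶠ u in 𝓝 (0 : V), u ∈ Φ.target ∧ DifferentiableAt ℂ χ u ∧
      DifferentiableAt ℂ F (χ u) ∧
      DifferentiableAt ℂ b (χ u) ∧ ∀ v, fderiv ℂ b (χ u) v = 0 → fderiv ℂ F (χ u) v = 0 := by
    have hc : Tendsto χ (𝓝 0) (𝓝 z₀) := by
      have := hχan.continuousAt.tendsto
      rwa [hχ0] at this
    filter_upwards [Φ.open_target.mem_nhds h0t, hχan.eventually_analyticAt,
      hc.eventually hF.eventually_analyticAt, hc.eventually hban.eventually_analyticAt,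
      hc.eventually hker] with u h1 h2 h3 h4 h5
    exact ⟨h1, h2.differentiableAt, h3.differentiableAt, h4.differentiableAt, h5⟩
  obtain ⟨δ, hδ, hball⟩ := Metric.eventually_nhds_iff_ball.1 hgood
  -- constancy
  have hconst : ∀ u, u ∈ ball (0 : V) δ → s (L u) ∈ ball (0 : V) δ → F (χ u) = F (χ (s (L u))) := by
    intro u hu hsu
    refine const_seg (G := fun u => F (χ u)) (a := s (L u)) (b := u) fun t ht => ?_
    set u' := s (L u) + (t : ℂ) • (u - s (L u)) with hu'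
    have hu'b : u' ∈ ball (0 : V) δ := by
      have e1 : u' = (1 - t) • s (L u) + t • u := by
        rw [hu', smul_sub, sub_smul, one_smul]
        simp only [Complex.coe_smul]
        abel
      rw [e1]
      exact (convex_ball (0 : V) δ) hsu hu (sub_nonneg.2 ht.2) ht.1 (by ring)
    obtain ⟨g1, g2, g3, g4, g5⟩ := hball u' hu'b
    have e1 : HasFDerivAt (fun u => F (χ u)) ((fderiv ℂ F (χ u')).comp (fderiv ℂ χ u')) u' :=
      g3.hasFDerivAt.comp u' g2.hasFDerivAt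
    refine ⟨_, e1, ?_⟩
    rw [ContinuousLinearMap.comp_apply]
    apply g5
    have e2 : HasFDerivAt (fun u => b (χ u)) ((fderiv ℂ b (χ u')).comp (fderiv ℂ χ u')) u' :=
      g4.hasFDerivAt.comp u' g2.hasFDerivAt
    have e3 : HasFDerivAt (fun u => b (χ u)) L u' := by
      have e4 : HasFDerivAt (fun u => b z₀ + L u) L u' := L.hasFDerivAt.const_add _
      refine e4.congr_of_eventuallyEq ?_
      filter_upwards [Φ.open_target.mem_nhds g1] with y hy using hbχ y hy
    have e5 := DFunLike.congr_fun (e2.unique e3) (u - s (L u))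
    rw [ContinuousLinearMap.comp_apply] at e5
    rw [e5, map_sub, hLs', sub_self]
  have hF'an : AnalyticAt ℂ (fun β => F (χ (s (β - b z₀)))) (b z₀) := by
    have e0 : s (b z₀ - b z₀) = 0 := by rw [sub_self, map_zero]
    have e1 : AnalyticAt ℂ (fun β => s (β - b z₀)) (b z₀) :=
      (s.analyticAt _).comp (analyticAt_id.sub analyticAt_const)
    have e2 : AnalyticAt ℂ (fun β => χ (s (β - b z₀))) (b z₀) :=
      AnalyticAt.fun_comp (by rw [e0]; exact hχan) e1
    exact AnalyticAt.fun_comp (by rw [e0, hχ0]; exact hF) e2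
  refine ⟨fun β => F (χ (s (β - b z₀))), hF'an, ?_⟩
  have hc1 : Tendsto φ (𝓝 z₀) (𝓝 0) := by
    have := hφan.continuousAt.tendsto
    rwa [hφ0] at this
  have hc2 : Tendsto (fun z => s (L (φ z))) (𝓝 z₀) (𝓝 0) := by
    have h := ((s.comp L).continuous.tendsto 0).comp hc1
    rw [map_zero] at h
    exact h
  filter_upwards [hc1.eventually (ball_mem_nhds 0 hδ), hc2.eventually (ball_mem_nhds 0 hδ),
    Φ.open_source.mem_nhds hzs] with z h1 h2 h3
  have e1 : χ (φ z) = z := Φ.left_inv h3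
  calc F z = F (χ (φ z)) := by rw [e1]
    _ = F (χ (s (L (φ z)))) := hconst _ h1 h2
    _ = F (χ (s (b z - b z₀))) := by rw [hLφ]

end factor

/-! ### summability over a discrete group -/

section lattice
variable {q : ℕ} {Λ : AddSubgroup (Cm q)}

theorem isolated (hΛ : ∀ R : ℝ, {v : Cm q | v ∈ Λ ∧ ‖v‖ ≤ R}.Finite) :
    ∃ ε > 0, ∀ v ∈ Λ, ‖v‖ < ε → v = 0 := by
  set T : Set (Cm q) := {v : Cm q | v ∈ Λ ∧ ‖v‖ ≤ 1} \ {0} with hT
  have hTf : T.Finite := (hΛ 1).sdiff
  have h1 : Tᶜ ∈ 𝓝 (0 : Cm q) := hTf.isClosed.isOpen_compl.mem_nhds (by simp [hT])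
  obtain ⟨ε, hε, hb⟩ := Metric.mem_nhds_iff.1 h1
  refine ⟨min ε 1, lt_min hε one_pos, fun v hv hn => ?_⟩
  by_contra h0
  exact hb (mem_ball_zero_iff.2 (hn.trans_le (min_le_left _ _)))
    ⟨⟨hv, (hn.trans_le (min_le_right _ _)).le⟩, h0⟩

theorem summable_rpow (hΛ : ∀ R : ℝ, {v : Cm q | v ∈ Λ ∧ ‖v‖ ≤ R}.Finite) :
    ∃ m : ℕ, Summable fun l : Λ => ‖(l : Cm q)‖ ^ (-(m : ℝ)) := by
  obtain ⟨ε, hε, h0⟩ := isolated hΛ
  let L : Submodule ℤ (Cm q) := AddSubgroup.toIntSubmodule Λ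
  have : DiscreteTopology L := by
    refine discreteTopology_of_isOpen_singleton_zero ?_
    rw [Metric.isOpen_iff]
    rintro x rfl
    refine ⟨ε, hε, fun y hy => ?_⟩
    have h1 : ‖(y : Cm q)‖ < ε := by simpa [dist_eq_norm] using hy
    exact Subtype.ext (h0 _ y.2 h1)
  refine ⟨Module.finrank ℤ L + 1, ?_⟩
  have := ZLattice.summable_norm_rpow L (-((Module.finrank ℤ L + 1 : ℕ) : ℝ)) (by push_cast; linarith)
  exact this

theorem summable_w (hΛ : ∀ R : ℝ, {v : Cm q | v ∈ Λ ∧ ‖v‖ ≤ R}.Finite) {ε : ℝ} (hε : 0 < ε)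
    (K : ℕ) : Summable fun l : Λ => Real.exp (-(ε * ‖(l : Cm q)‖)) * (1 + ‖(l : Cm q)‖) ^ K := by
  obtain ⟨m, hm⟩ := summable_rpow hΛ
  -- `e^{-ε x} (1+x)^K x^m` is bounded on `[0,∞)`
  have h1 : Tendsto (fun x : ℝ => Real.exp (-(ε * x)) * (1 + x) ^ K * x ^ m) atTop (𝓝 0) := by
    have h2 : Tendsto (fun x : ℝ => (1 + x) ^ (K + m) * Real.exp (-(ε * (1 + x)))) atTop (𝓝 0) := by
      have h3 := Real.tendsto_pow_mul_exp_neg_atTop_nhds_zero (K + m)
      have h4 : Tendsto (fun x : ℝ => ε * (1 + x)) atTop atTop :=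
        (tendsto_atTop_add_const_left _ 1 tendsto_id).const_mul_atTop hε
      have h5 := (h3.comp h4).const_mul ((ε ^ (K + m))⁻¹)
      rw [mul_zero] at h5
      refine h5.congr fun x => ?_
      simp only [Function.comp_apply, mul_pow]
      field_simp
    have h6 := h2.const_mul (Real.exp ε)
    rw [mul_zero] at h6
    refine squeeze_zero' ?_ ?_ h6
    · filter_upwards [eventually_ge_atTop 0] with x hx
      positivity
    · filter_upwards [eventually_ge_atTop 0] with x hx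
      have e1 : Real.exp ε * ((1 + x) ^ (K + m) * Real.exp (-(ε * (1 + x)))) =
          Real.exp (-(ε * x)) * (1 + x) ^ K * (1 + x) ^ m := by
        rw [pow_add, mul_add, neg_add, Real.exp_add, mul_one, Real.exp_neg ε]
        field_simp
      rw [e1]
      gcongr
      linarith
  obtain ⟨R, hR⟩ : ∃ R : ℝ, ∀ x ≥ R, Real.exp (-(ε * x)) * (1 + x) ^ K * x ^ m ≤ 1 := by
    have := (h1.eventually (gt_mem_nhds one_pos)).exists_forall_of_atTop
    obtain ⟨R, hR⟩ := this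
    exact ⟨R, fun x hx => (hR x hx).le⟩
  refine Summable.of_norm_bounded_eventually hm ?_
  have h7 : {l : Λ | ‖(l : Cm q)‖ ≤ max R 0}.Finite :=
    ((hΛ (max R 0)).preimage Subtype.val_injective.injOn).subset fun l hl => ⟨l.2, hl⟩
  filter_upwards [h7.compl_mem_cofinite] with l hl
  have h8 : max R 0 < ‖(l : Cm q)‖ := not_le.1 hl
  have h9 : 0 < ‖(l : Cm q)‖ := (le_max_right _ _).trans_lt h8
  have h10 := hR _ ((le_max_left _ _).trans h8.le)
  rw [Real.norm_of_nonneg (by positivity), Real.rpow_neg h9.le, Real.rpow_natCast]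
  rw [← one_div, le_div_iff₀ (by positivity)]
  exact h10

end lattice

end Vale.Agent.P284.H661.Lim
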