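import Vale.Agent.P284.H661.HaarS

/-!
# P284, push-forward = Haar: the divergence identity
-/

open scoped Manifold ContDiff Topology Pointwise ComplexConjugate ComplexOrder Matrix
open Filter Set Metric MeasureTheory

noncomputable section

namespace Vale.Agent.P284.H661

open Vale.Agent.P272.K Vale.Agent.P272.K.C2 Vale.Agent.P284.H248 Vale.Agent.P284.H894
  Vale.Agent.P284.H894.V Vale.Agent.P284.H639.V Vale.Agent.P284.H66 Vale.Agent.P284.H913.V
  Vale.Agent.P284.H66.S7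

section loc
variable {n N : ℕ}

theorem fderiv_apply_JF {F : Cm n → Cm N} {z : Cm n} (h : DifferentiableAt ℂ F z) (i : Fin n)
    (p : Fin N) : fderiv ℂ F z (Pi.single i 1) p = JF F z p i := by
  have h1 : DifferentiableAt ℂ (fun y => F y p) z := (differentiableAt_pi.1 h) p
  rw [JF, Matrix.of_apply, Vale.Agent.P272.K.dz_of_holo h1, fderiv_apply h p]
  rfl

theorem dz_comp_JF {f : Cm N → ℂ} {F : Cm n → Cm N} {z : Cm n} (hf : DifferentiableAt ℝ f (F z))
    (h : DifferentiableAt ℂ F z) (i : Fin n) :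
    dz i (fun y => f (F y)) z = ∑ p, dz p f (F z) * JF F z p i := by
  have h0 : ∀ v, fderiv ℝ (fun y => f (F y)) z v = fderiv ℝ f (F z) (fderiv ℂ F z v) := by
    intro v
    have h1 : DifferentiableAt ℝ F z := h.restrictScalars ℝ
    rw [show (fun y => f (F y)) = f ∘ F from rfl, fderiv_comp z hf h1]
    simp only [ContinuousLinearMap.comp_apply]
    rw [fderivR_of_holo h]
  have hI : ∀ p, fderiv ℂ F z (Pi.single i Complex.I) p = Complex.I * JF F z p i := by
    intro p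
    have : (Pi.single i Complex.I : Cm n) = Complex.I • Pi.single i 1 := by
      rw [← Pi.single_smul]; simp
    rw [this, map_smul, Pi.smul_apply, fderiv_apply_JF h, smul_eq_mul]
  have h1 : ∀ p, fderiv ℂ F z (Pi.single i 1) p = JF F z p i := fun p => fderiv_apply_JF h i p
  rw [dz, h0, h0, Vale.Agent.P272.K.fderiv_eq, Vale.Agent.P272.K.fderiv_eq]
  simp only [hI, h1]
  rw [Finset.mul_sum, ← Finset.sum_sub_distrib, Finset.sum_div]
  refine Finset.sum_congr rfl fun p _ => ?_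
  have h4 : cj (Complex.I * JF F z p i) = -Complex.I * cj (JF F z p i) := by simp [cj]
  rw [h4]
  have h5 : Complex.I * Complex.I = -1 := Complex.I_mul_I
  linear_combination (-(dz p f (F z)) * JF F z p i / 2 + dzb p f (F z) * cj (JF F z p i) / 2) * h5

/-- the directional derivative by `dz` -/
theorem two_re_dz {φ : Cm N → ℝ} {x : Cm N} (h : DifferentiableAt ℝ φ x) (v : Cm N) :
    (∑ r, 2 * dz r (fun y => (φ y : ℂ)) x * v r).re = fderiv ℝ φ x v := by
  have h1 : fderiv ℝ (fun y => (φ y : ℂ)) x v = ((fderiv ℝ φ x v : ℝ) : ℂ) := by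
    have : HasFDerivAt (fun y => (φ y : ℂ)) (Complex.ofRealCLM.comp (fderiv ℝ φ x)) x :=
      Complex.ofRealCLM.hasFDerivAt.comp x h.hasFDerivAt
    rw [this.fderiv]; rfl
  have h2 := Vale.Agent.P272.K.fderiv_eq (f := fun y => (φ y : ℂ)) (z := x) v
  have h3 : ∀ r, dzb r (fun y => (φ y : ℂ)) x = conj (dz r (fun y => (φ y : ℂ)) x) := by
    intro r
    have e1 : ∀ u, fderiv ℝ (fun y => (φ y : ℂ)) x u = ((fderiv ℝ φ x u : ℝ) : ℂ) := by
      intro u
      have : HasFDerivAt (fun y => (φ y : ℂ)) (Complex.ofRealCLM.comp (fderiv ℝ φ x)) x :=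
        Complex.ofRealCLM.hasFDerivAt.comp x h.hasFDerivAt
      rw [this.fderiv]; rfl
    rw [dz, dzb, e1, e1]
    simp [map_ofNat]
  rw [h1] at h2
  have h4 := congrArg Complex.re h2
  rw [Complex.ofReal_re] at h4
  rw [h4, Complex.re_sum, Complex.re_sum]
  refine Finset.sum_congr rfl fun r _ => ?_
  rw [h3 r]
  have h5 : conj (dz r (fun y => (φ y : ℂ)) x) * cj (v r) =
      conj (dz r (fun y => (φ y : ℂ)) x * v r) := by
    rw [map_mul]
  rw [h5, Complex.add_re, Complex.conj_re, mul_assoc]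
  have h6 : ((2 : ℂ) * (dz r (fun y => (φ y : ℂ)) x * v r)).re =
      2 * (dz r (fun y => (φ y : ℂ)) x * v r).re := by
    simp
  rw [h6]
  ring

end loc

section glob
variable {n N : ℕ} {Γ : Type} [Group Γ] {C : Coc n Γ} {p q : Matrix (Fin N) (Fin N) ℂ}
  (D : Dat C p q) (P : PU C) (K : KM C)

/-- the density `D = det (J̄ w⁻¹ Jᵀ)` -/
def dn (a : C.I) (z : Cm n) : ℝ := (D.M K a z).det.re

/-- the form `Σ_b 2 φ(F) v_b conj(J_b)` -/
def fv (φ : Cm N → ℝ) (v : Cm N) (a : C.I) (z : Cm n) (l : Fin n) : ℂ :=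
  ∑ b, 2 * (φ (D.F 1 a z) : ℂ) * v b * conj (D.J a z b l)

theorem F_smooth {a : C.I} {z : Cm n} (hz : z ∈ C.Ω a) : ContDiffAt ℝ ∞ (D.F 1 a) z :=
  contDiffAt_pi.2 fun b => (D.holV 1 hz b).smooth

theorem F_diff {a : C.I} {z : Cm n} (hz : z ∈ C.Ω a) : DifferentiableAt ℂ (D.F 1 a) z :=
  (D.hol 1 a).differentiableAt ((isOpen_Ω C a).mem_nhds hz)

variable {φ : Cm N → ℝ} (hφ : ContDiff ℝ ∞ φ) (hper : ∀ g t, φ (t + D.c g) = φ t)

include hper in
theorem phi_F_change {a d : C.I} {z : Cm n} (hz : z ∈ C.O a d) :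
    φ (D.F 1 a z) = φ (D.F 1 d (C.T a d z)) := by
  rw [(D.F_ev hz).self_of_nhds, (D.F_shift _ (T_mem_Ω C hz)).self_of_nhds, hper]

include hφ in
theorem phi_F_smooth {a : C.I} {z : Cm n} (hz : z ∈ C.Ω a) :
    ContDiffAt ℝ ∞ (fun y => φ (D.F 1 a y)) z :=
  hφ.contDiffAt.comp z (F_smooth D hz)

include hφ hper in
theorem fv_CF (v : Cm N) : CF C (fv D φ v) where
  smooth a z hz l := by
    unfold fv
    exact ContDiffAt.sum fun b _ => ((contDiffAt_const.mul
      (contDiffAt_ofReal (phi_F_smooth D hφ hz))).mul contDiffAt_const).mul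
        ((D.holV 1 hz).J b l).smooth_conj
  change a d z hz := by
    ext l
    have h1 : ∀ b, conj (D.J a z b l) = ∑ m, conj (D.J d (C.T a d z) b m) * conj (jac C a d z m l) := by
      intro b
      rw [D.J_change hz, Matrix.mul_apply, map_sum]
      exact Finset.sum_congr rfl fun m _ => map_mul _ _ _
    simp only [fv, Matrix.mulVec, dotProduct, Matrix.conjTranspose_apply, RCLike.star_def]
    rw [phi_F_change D hper hz]
    simp only [h1, Finset.mul_sum]
    rw [Finset.sum_comm]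
    refine Finset.sum_congr rfl fun m _ => Finset.sum_congr rfl fun b _ => ?_
    ring

/-- the matrix `Y r b = 2 ∂_r φ(F) v_b` -/
def Ym (φ : Cm N → ℝ) (v x : Cm N) : Matrix (Fin N) (Fin N) ℂ :=
  Matrix.of fun r b => 2 * dz r (fun y => (φ y : ℂ)) x * v b

include hφ in
theorem pd_fv (v : Cm N) {a : C.I} {z : Cm n} (hz : z ∈ C.Ω a) :
    pd (fv D φ v a) z = (D.J a z)ᵀ * Ym φ v (D.F 1 a z) * (D.J a z).map (starRingEnd ℂ) := by
  have hd : DifferentiableAt ℝ (fun y => (φ (D.F 1 a y) : ℂ)) z :=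
    differentiableAt_ofReal ((phi_F_smooth D hφ hz).differentiableAt (by simp))
  have hφd : DifferentiableAt ℝ (fun y => (φ y : ℂ)) (D.F 1 a z) :=
    differentiableAt_ofReal (hφ.contDiffAt.differentiableAt (by simp))
  have h1 : ∀ b, DifferentiableAt ℝ (fun y => 2 * (φ (D.F 1 a y) : ℂ) * v b) z := fun b =>
    (hd.const_mul _).mul_const _
  have h2 : ∀ b l, DifferentiableAt ℝ (fun y => conj (D.J a y b l)) z := fun b l =>
    ((D.holV 1 hz).J b l).diff_conj
  ext r l
  have e1 : (fun y => fv D φ v a y l) = fun y => ∑ b, (2 * (φ (D.F 1 a y) : ℂ) * v b) *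
      conj (D.J a y b l) := rfl
  rw [pd, Matrix.of_apply, e1, C2.dz_sum r _ fun b _ => (h1 b).fun_mul (h2 b l), Matrix.mul_apply]
  refine Finset.sum_congr rfl fun b _ => ?_
  have h3 : dz r (fun y => conj (D.J a y b l)) z = 0 := ((D.holV 1 hz).J b l).dz_conj0 r
  rw [C2.dz_mul r (h1 b) (h2 b l), h3, mul_zero, add_zero, Matrix.map_apply]
  congr 1
  rw [C2.dz_mul_const r _ (hd.const_mul _), C2.dz_const_mul r _ hd,
    dz_comp_JF (f := fun y => (φ y : ℂ)) hφd (F_diff D hz), Matrix.mul_apply, Finset.mul_sum,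
    Finset.sum_mul]
  refine Finset.sum_congr rfl fun c _ => ?_
  rw [Ym, Matrix.of_apply, Matrix.transpose_apply, Dat.J]
  ring

theorem dn_nonneg {a : C.I} {z : Cm n} (hz : z ∈ C.Ω a) : 0 ≤ dn D K a z :=
  (Complex.le_def.1 (M_psd ((K.ku a).pos z hz) (D.J a z)).det_nonneg).1

theorem det_M_real {a : C.I} {z : Cm n} (hz : z ∈ C.Ω a) :
    ((dn D K a z : ℝ) : ℂ) = (D.M K a z).det := by
  have hM : (D.M K a z).PosSemidef := M_psd ((K.ku a).pos z hz) (D.J a z)
  rw [dn, ← Complex.conj_eq_iff_re]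
  have : conj (D.M K a z).det = ((D.M K a z)ᴴ).det := by
    rw [Matrix.det_conjTranspose]; rfl
  rw [this, hM.isHermitian.eq]

include hφ hper in
/-- **the divergence identity** -/
theorem bint_dphi (v : Cm N) :
    BInt P K (fun a z => dn D K a z * fderiv ℝ φ (D.F 1 a z) v) = 0 := by
  have hCF := fv_CF D hφ hper v
  have key : ∀ a, ∀ z ∈ C.V a, dn D K a z * fderiv ℝ φ (D.F 1 a z) v =
      ∑ j : Fin (N + 1), (INT.lag N j (-1) * (((j : ℝ) + 1) ^ N / ((j : ℝ) + 1) ^ n)) *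
        dens K (D.bs K 1 ((j : ℝ) + 1)) (fv D φ v) a z := by
    intro a z hz'
    have hz := V_sub_Ω C a hz'
    have h1 := interp (1 : Matrix (Fin N) (Fin N) ℂ) (Ym φ v (D.F 1 a z)) (D.M K a z)
    rw [Matrix.adjugate_one, Matrix.one_mul, ← det_M_real D K hz, Complex.re_ofReal_mul] at h1
    have h2 : (Ym φ v (D.F 1 a z)).trace.re = fderiv ℝ φ (D.F 1 a z) v :=
      two_re_dz (hφ.contDiffAt.differentiableAt (by simp)) v
    rw [h2] at h1
    rw [h1]
    refine Finset.sum_congr rfl fun j _ => ?_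
    have hs : ((j : ℝ) + 1) ≠ 0 := by positivity
    have h3 := key_poly ((K.ku a).pos z hz) (D.J a z) ((D.J a z).map (starRingEnd ℂ)) 1
      (Ym φ v (D.F 1 a z)) hs
    have hv : vol (K.w a) z ≠ 0 := vol_ne K hz
    have h4 : dens K (D.bs K 1 ((j : ℝ) + 1)) (fv D φ v) a z =
      ((D.bs K 1 ((j : ℝ) + 1) a z).adjugate * ((D.J a z)ᵀ * Ym φ v (D.F 1 a z) *
        (D.J a z).map (starRingEnd ℂ))).trace.re / vol (K.w a) z := by
      rw [dens, pd_fv D hφ v hz]
    have h5 : ((j : ℝ) + 1) ^ N * ((D.bs K 1 ((j : ℝ) + 1) a z).adjugate *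
        ((D.J a z)ᵀ * Ym φ v (D.F 1 a z) * (D.J a z).map (starRingEnd ℂ))).trace.re =
        ((j : ℝ) + 1) ^ n * vol (K.w a) z * GG 1 (Ym φ v (D.F 1 a z)) (D.M K a z) ((j : ℝ) + 1) :=
      h3
    rw [h4, mul_assoc]
    congr 1
    have hsn : ((j : ℝ) + 1) ^ n ≠ 0 := pow_ne_zero _ hs
    field_simp
    linarith
  rw [BInt_congr P K key, BInt_sum P K Finset.univ fun j _ =>
    BD_smul (dens_BD K (D.CB_bs K 1 _) hCF) _]
  refine Finset.sum_eq_zero fun j _ => ?_
  rw [BInt_smul, glob_div P K (D.CB_bs K 1 _) hCF, mul_zero]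

theorem M_smooth {a : C.I} {z : Cm n} (hz : z ∈ C.Ω a) : MC ∞ (fun y => D.M K a y) z := by
  have hJ : ∀ b l, Hol (fun y => D.J a y b l) z := fun b l => (D.holV 1 hz).J b l
  intro i j
  have e1 : (fun y => D.M K a y i j) = fun y => ∑ k, (∑ l, conj (D.J a y i l) *
      (K.w a y)⁻¹ l k) * D.J a y j k := rfl
  rw [e1]
  exact ContDiffAt.sum fun k _ => (ContDiffAt.sum fun l _ => (hJ i l).smooth_conj.mul
    (KU_inv (K.ku a) hz l k)).mul (hJ j k).smooth

theorem dn_cont (a : C.I) : ContinuousOn (dn D K a) (C.Ω a) := by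
  intro z hz
  exact (re_smooth (M_smooth D K hz).det).continuousAt.continuousWithinAt

theorem dn_change {a d : C.I} {z : Cm n} (hz : z ∈ C.O a d) :
    dn D K a z = dn D K d (C.T a d z) := by
  have h5 : (jac C a d z).map (starRingEnd ℂ) * (K.w a z)⁻¹ * (jac C a d z)ᵀ =
      (K.w d (C.T a d z))⁻¹ :=
    H730.V.inv_law (KU_det (K.ku a) (O_sub_Ω C hz)) (K.change a d z hz)
  have h1 : D.M K a z = D.M K d (C.T a d z) := by
    rw [Dat.M, Dat.M, D.J_change hz, Matrix.transpose_mul, Matrix.map_mul, ← h5]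
    simp only [Matrix.mul_assoc]
  rw [dn, dn, h1]

include hφ hper in
theorem phi_BD : BD C (fun a z => dn D K a z * φ (D.F 1 a z)) where
  cont a := (dn_cont D K a).mul (hφ.continuous.comp_continuousOn (D.hol 1 a).continuousOn)
  compat a b z hz _ _ := by rw [dn_change D K hz, phi_F_change D hper hz]

end glob

end Vale.Agent.P284.H661
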