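import Vale.Agent.P284.H66.S7b

/-!
# P284, push-forward = Haar, level of `Coc`: the statement

`F` a holomorphic equivariant family of maps to `ℂ^q` over the cocycle, whose periods are discrete
(finitely many in each ball).  Then the push-forward under `F` of the measure
`det (J̄ w⁻¹ Jᵀ) · det w` is at most a constant times Lebesgue measure.
-/

open scoped ENNReal ComplexConjugate Matrix
open Set MeasureTheory

noncomputable section

namespace Vale.Agent.P284.H661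

open Vale.Agent.P272.K Vale.Agent.P284.H894 Vale.Agent.P284.H894.V Vale.Agent.P284.H66.S7

/-- `D_a(z) = Re det (J̄ w⁻¹ Jᵀ)`, `J` the Jacobian matrix of `F` -/
def dJ {n q : ℕ} (F : Cm n → Cm q) (w : Matrix (Fin n) (Fin n) ℂ) (z : Cm n) : ℝ :=
  ((JF F z).map (starRingEnd ℂ) * w⁻¹ * (JF F z)ᵀ).det.re

/-- **P1: the push-forward is dominated by Lebesgue measure** -/
def HaarCocStmt : Prop := ∀ (n : ℕ) (Γ : Type) [Group Γ] (C : Coc n Γ) (_ : PU C) (K : KM C)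
    (q : ℕ) (F : Γ → C.I → Cm n → Cm q) (c : Γ → Cm q),
    (∀ γ a, DifferentiableOn ℂ (F γ a) (C.Ω a)) →
    (∀ γ a b, ∀ z ∈ C.O a b, F γ a z = F (γ * C.κ a b z) b (C.T a b z)) →
    (∀ g γ a, ∀ z ∈ C.Ω a, F (g * γ) a z = F γ a z + c g) →
    (∀ R : ℝ, {v : Cm q | (∃ g, c g = v) ∧ ‖v‖ ≤ R}.Finite) →
    ∃ A : ℝ≥0∞, A ≠ ⊤ ∧ ∀ (g : Γ) (a : C.I) (s : Cm q → ℝ≥0∞), Measurable s →
      ∫⁻ z in C.V a, s (F g a z) *
          ENNReal.ofReal (dJ (F g a) (K.w a z) z * vol (K.w a) z) ≤ A * ∫⁻ y, s y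

end Vale.Agent.P284.H661
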