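import Mathlib

/-!
# P284, MF(I), the limit: square summable families over an additive group
-/

open scoped ContDiff Topology ComplexConjugate ENNReal
open Set Filter Metric

noncomputable section

namespace Vale.Agent.P284.H661.Lim

/-- the space of square summable families -/
abbrev L2 (Λ : Type) : Type := lp (fun _ : Λ => ℂ) 2

section
variable {Λ : Type}

theorem mem_iff {a : Λ → ℂ} : Memℓp a 2 ↔ Summable fun l => ‖a l‖ ^ 2 := by
  rw [memℓp_gen_iff (by norm_num)]
  norm_num

theorem mem_of_summable {a : Λ → ℂ} (h : Summable fun l => ‖a l‖) : Memℓp a 2 := by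
  have h1 : Memℓp a 1 := by
    rw [memℓp_gen_iff (by norm_num)]
    simpa using h
  exact h1.of_exponent_ge (by norm_num)

open Classical in
/-- a family as an element of the space -/
def vec (a : Λ → ℂ) : L2 Λ := if h : Memℓp a 2 then ⟨a, h⟩ else 0

theorem vec_apply {a : Λ → ℂ} (h : Memℓp a 2) (l : Λ) : vec a l = a l := by
  rw [vec, dif_pos h]

theorem vec_sub {a b : Λ → ℂ} (ha : Memℓp a 2) (hb : Memℓp b 2) :
    vec a - vec b = vec fun l => a l - b l := by
  have h1 : Memℓp (fun l => a l - b l) 2 := ha.sub hb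
  refine lp.ext (funext fun l => ?_)
  rw [lp.coeFn_sub, Pi.sub_apply, vec_apply ha, vec_apply hb, vec_apply h1]

theorem vec_smul {a : Λ → ℂ} (c : ℂ) (ha : Memℓp a 2) : c • vec a = vec fun l => c * a l := by
  have h1 : Memℓp (fun l => c * a l) 2 := ha.const_smul c
  refine lp.ext (funext fun l => ?_)
  rw [lp.coeFn_smul, Pi.smul_apply, vec_apply ha, vec_apply h1]
  rfl

theorem vec_sum {ι : Type*} (s : Finset ι) {a : ι → Λ → ℂ} (ha : ∀ i, Memℓp (a i) 2) :
    ∑ i ∈ s, vec (a i) = vec fun l => ∑ i ∈ s, a i l := by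
  have h1 : Memℓp (fun l => ∑ i ∈ s, a i l) 2 := by
    have := Memℓp.finsetSum s (p := 2) (f := a) fun i _ => ha i
    simpa using this
  refine lp.ext (funext fun l => ?_)
  rw [lp.coeFn_sum, Finset.sum_apply, vec_apply h1]
  exact Finset.sum_congr rfl fun i _ => vec_apply (ha i) l

theorem norm_sq (x : L2 Λ) : ‖x‖ ^ 2 = ∑' l, ‖x l‖ ^ 2 := by
  have := lp.norm_rpow_eq_tsum (p := 2) (by norm_num) x
  simpa using this

theorem summable_sq (x : L2 Λ) : Summable fun l => ‖x l‖ ^ 2 := mem_iff.1 (lp.memℓp x)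

theorem norm_le_of {x y : L2 Λ} {C : ℝ} (hC : 0 ≤ C) (h : ∀ l, ‖x l‖ ≤ C * ‖y l‖) :
    ‖x‖ ≤ C * ‖y‖ := by
  refine le_of_sq_le_sq ?_ (by positivity) |> fun h => h
  rw [mul_pow, norm_sq, norm_sq, ← tsum_mul_left]
  refine Summable.tsum_le_tsum (fun l => ?_) (summable_sq x) ((summable_sq y).mul_left _)
  rw [← mul_pow]
  exact pow_le_pow_left₀ (norm_nonneg _) (h l) 2

theorem norm_apply_le (x : L2 Λ) (l : Λ) : ‖x l‖ ≤ ‖x‖ := lp.norm_apply_le_norm (by norm_num) x l

theorem vec_tsum [DecidableEq Λ] {a : Λ → ℂ} (ha : Memℓp a 2) :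
    vec a = ∑' l, lp.single 2 l (a l) := by
  have h := lp.hasSum_single (p := 2) (by norm_num) (vec a)
  rw [← h.tsum_eq]
  refine tsum_congr fun l => ?_
  rw [vec_apply ha]

/-- reindexing -/
def rei (e : Λ ≃ Λ) : L2 Λ ≃ₗᵢ[ℂ] L2 Λ :=
  have key : ∀ (e : Λ ≃ Λ) (x : L2 Λ), Memℓp (fun l => x (e l)) 2 := fun e x =>
    mem_iff.2 (e.summable_iff.2 (summable_sq x))
  { toLinearEquiv :=
      { toFun := fun x => ⟨fun l => x (e l), key e x⟩
        invFun := fun x => ⟨fun l => x (e.symm l), key e.symm x⟩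
        map_add' := fun x y => by
          refine lp.ext (funext fun l => ?_)
          rfl
        map_smul' := fun c x => by
          refine lp.ext (funext fun l => ?_)
          rfl
        left_inv := fun x => by
          refine lp.ext (funext fun l => ?_)
          simp
        right_inv := fun x => by
          refine lp.ext (funext fun l => ?_)
          simp }
    norm_map' := fun x => by
      have h1 : ‖(⟨fun l => x (e l), key e x⟩ : L2 Λ)‖ ^ 2 = ‖x‖ ^ 2 := by
        rw [norm_sq, norm_sq]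
        exact e.tsum_eq fun l => ‖x l‖ ^ 2
      exact (pow_left_inj₀ (norm_nonneg _) (norm_nonneg _) two_ne_zero).1 h1 }

theorem rei_apply (e : Λ ≃ Λ) (x : L2 Λ) (l : Λ) : rei e x l = x (e l) := rfl

end

end Vale.Agent.P284.H661.Lim
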