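import Vale.Agent.P284.H661.Lim1
import Vale.Agent.P284.H661.Lim2
import Vale.Agent.P284.H672.ExS
import Vale.Agent.P284.H224.Base

/-!
# P284, MF(I), the limit: charts of the covering space
-/

open scoped Manifold ContDiff Topology ENNReal Matrix
open Filter Set Metric MeasureTheory

noncomputable section

namespace Vale.Agent.P284.H661.Lim

open Vale.Agent.P272.K Vale.Agent.P284.H573 Vale.Agent.P284.H894.G Vale.Agent.P284.H894.W
  Vale.Agent.P284.H494 Vale.Agent.P284.H672 Vale.Agent.P284.H10 Vale.Agent.P284.H224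

section
variable {n : ℕ} {X : Type} [TopologicalSpace X] [ChartedSpace (Cm n) X] {E : Type}
  [TopologicalSpace E] {p : E → X} {Γ : Type} [Group Γ] [MulAction Γ E]
  {w : Chart n X → Cm n → Matrix (Fin n) (Fin n) ℂ} {q : ℕ} {F : E → Cm q} {c : Γ → Cm q}
  {e e' : Chart n X} {ε ε' : OpenPartialHomeomorph E (Cm n)}

/-- the minors of the derivative of `F` in a chart of `E` -/
def dt (F : E → Cm q) (ε : OpenPartialHomeomorph E (Cm n)) (z : Cm n) (ξ : Fin q → Cm n) : ℂ :=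
  (Matrix.of fun i j => fderiv ℂ (F ∘ ε.symm) z (ξ j) i).det

theorem symm_tendsto {z : Cm n} (hz : z ∈ ε.target) : Tendsto ε.symm (𝓝 z) (𝓝 (ε.symm z)) :=
  (ε.continuousAt_symm hz)

variable [IsManifold 𝓘(ℂ, Cm n) ω X]

theorem dense_reg [ConnectedSpace E] (hp : IsGalois Γ p) (hA : Per p w F c)
    (hex : ∃ y, Reg (n := n) p F y) : Dense {y : E | Reg (n := n) p F y} := by
  rcases Nat.eq_zero_or_pos q with h0 | h0
  · subst h0
    have : {y : E | Reg (n := n) p F y} = univ := by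
      ext y
      simp only [mem_univ, iff_true]
      intro e f _ _ v
      exact ⟨0, Subsingleton.elim _ _⟩
    rw [this]
    exact dense_univ
  · obtain ⟨B, hB⟩ := hA.hol
    exact reg_dense h0 hp.cov hB hex

omit [IsManifold 𝓘(ℂ, Cm n) ω X] in
theorem tgt_closure {S : Set E} (hd : Dense S) :
    ε.target ⊆ closure {z | z ∈ ε.target ∧ ε.symm z ∈ S} := by
  intro z hz
  rw [mem_closure_iff_nhds]
  intro O hO
  have h1 : ε.source ∩ ε ⁻¹' O ∈ 𝓝 (ε.symm z) := by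
    refine inter_mem (ε.open_source.mem_nhds (ε.map_target hz)) ?_
    have := (ε.continuousAt (ε.map_target hz))
    unfold ContinuousAt at this
    rw [ε.right_inv hz] at this
    exact this hO
  obtain ⟨y, ⟨hy1, hy2⟩, hy3⟩ := mem_closure_iff_nhds.1 (hd (ε.symm z)) _ h1
  exact ⟨ε y, hy2, ε.map_source hy1, by rwa [ε.left_inv hy1]⟩

omit [IsManifold 𝓘(ℂ, Cm n) ω X] in
theorem F_an (hA : Per p w F c) (hε : IsCh p e ε) {z : Cm n} (hz : z ∈ ε.target) :
    AnalyticAt ℂ (F ∘ ε.symm) z := by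
  obtain ⟨B, hB⟩ := hA.hol
  exact Vale.Agent.P281.MF.analyticAt_of_differentiableOn ε.open_target (hε.diff hB) hz

omit [IsManifold 𝓘(ℂ, Cm n) ω X] in
theorem dt_an (hA : Per p w F c) (hε : IsCh p e ε) {z : Cm n} (hz : z ∈ ε.target)
    (ξ : Fin q → Cm n) : AnalyticAt ℂ (fun z => dt F ε z ξ) z := by
  have h1 : ∀ i j, AnalyticAt ℂ (fun z => fderiv ℂ (F ∘ ε.symm) z (ξ j) i) z := by
    intro i j
    have h2 := (F_an hA hε hz).fderiv
    have h3 : AnalyticAt ℂ (fun z => fderiv ℂ (F ∘ ε.symm) z (ξ j)) z :=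
      ((ContinuousLinearMap.apply ℂ (Cm q) (ξ j)).analyticAt _).comp h2
    exact ((ContinuousLinearMap.proj (R := ℂ) (φ := fun _ : Fin q => ℂ) i).analyticAt _).comp h3
  unfold dt
  simp only [Matrix.det_apply', Matrix.of_apply]
  refine Finset.analyticAt_fun_sum _ fun σ _ => ?_
  exact analyticAt_const.mul (Finset.analyticAt_fun_prod _ fun i _ => h1 _ _)

omit [IsManifold 𝓘(ℂ, Cm n) ω X] in
theorem p_smul (hp : IsGalois Γ p) (g : Γ) (y : E) : p (g • y) = p y :=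
  ((hp.orb y (g • y)).2 ⟨g, rfl⟩).symm

omit [IsManifold 𝓘(ℂ, Cm n) ω X] in
/-- the representation of `F` at `g y` -/
theorem rep_smul (hp : IsGalois Γ p) (hA : Per p w F c) (hε : IsCh p e ε) (g : Γ) {y : E}
    (hy : y ∈ ε.source) :
    ∀ᶠ y' in 𝓝 (g • y), F y' = (fun z => (F ∘ ε.symm) z + c g) (e (p y')) := by
  have h1 : Tendsto (fun y' => g⁻¹ • y') (𝓝 (g • y)) (𝓝 y) := by
    have := (hp.cont g⁻¹).tendsto (g • y)
    simpa using this
  filter_upwards [h1.eventually (hε.ev (F := F) hy)] with y' h2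
  have h3 : F y' = F (g⁻¹ • y') + c g := by
    rw [← hA.equiv g, smul_inv_smul]
  rw [h3, h2, p_smul hp]

omit [IsManifold 𝓘(ℂ, Cm n) ω X] in
/-- (b) -/
theorem ext_germ {W : Type} [NormedAddCommGroup W] [InnerProductSpace ℂ W] {h : E → W}
    (hp : IsGalois Γ p) (hA : Per p w F c) (hh : SheetHol n p F h) (hε : IsCh p e ε) (g : Γ)
    (ξ : Fin q → Cm n) {z : Cm n} (hz : z ∈ ε.target) :
    ∃ φ : Cm n → W, AnalyticAt ℂ φ z ∧ ∀ᶠ z' in 𝓝 z, z' ∈ ε.target →
      Reg (n := n) p F (ε.symm z') → dt F ε z' ξ • h (g • ε.symm z') = φ z' := by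
  set y := ε.symm z with hy
  have hys : y ∈ ε.source := ε.map_target hz
  have hz' : e (p (g • y)) = z := by
    rw [p_smul hp, ← hε.eq y hys, hy, ε.right_inv hz]
  have hat : At e (p (g • y)) := by
    rw [p_smul hp]
    exact hε.at hys
  have hfan : AnalyticAt ℂ (fun z => (F ∘ ε.symm) z + c g) (e (p (g • y))) := by
    rw [hz']
    exact (F_an hA hε hz).add analyticAt_const
  obtain ⟨φ, h1, h2⟩ := hh.ext (g • y) e _ hat hfan (rep_smul hp hA hε g hys) ξ
  rw [hz'] at h1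
  refine ⟨φ, h1, ?_⟩
  have h3 : Tendsto (fun z' => g • ε.symm z') (𝓝 z) (𝓝 (g • y)) :=
    ((hp.cont g).tendsto y).comp (symm_tendsto hz)
  filter_upwards [h3.eventually h2] with z' h4 h5 h6
  have h7 := h4 ((per_reg_iff hp hA).2 h6)
  have h8 : e (p (g • ε.symm z')) = z' := by
    rw [p_smul hp, ← hε.eq _ (ε.map_target h5), ε.right_inv h5]
  rw [h8] at h7
  rw [← h7, dt]
  congr 3
  ext i j
  rw [fderiv_add_const]

omit [IsManifold 𝓘(ℂ, Cm n) ω X] in
theorem ext_shift {W : Type} [NormedAddCommGroup W] [InnerProductSpace ℂ W] {h : E → W}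
    (hp : IsGalois Γ p) (hA : Per p w F c) (hd : Dense {y : E | Reg (n := n) p F y})
    (hh : SheetHol n p F h) (hε : IsCh p e ε) (g : Γ) (ξ : Fin q → Cm n) :
    ∃ φ : Cm n → W, (∀ z ∈ ε.target, AnalyticAt ℂ φ z) ∧ ∀ z ∈ ε.target,
      Reg (n := n) p F (ε.symm z) → φ z = dt F ε z ξ • h (g • ε.symm z) := by
  obtain ⟨φ, h1, h2⟩ := exists_ext (f := fun z => dt F ε z ξ • h (g • ε.symm z)) ε.open_target
    (tgt_closure (ε := ε) hd) fun z hz => by
      obtain ⟨φ, h1, h2⟩ := ext_germ hp hA hh hε g ξ hz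
      exact ⟨φ, h1, h2.mono fun z' h3 h4 => h3 h4.1 h4.2⟩
  exact ⟨φ, h1, fun z hz hr => h2 z hz ⟨hz, hr⟩⟩

omit [IsManifold 𝓘(ℂ, Cm n) ω X] in
/-- (c) -/
theorem growth_ch {h : E → ℂ} (hA : Per p w F c)
    (hh : ExFun n Γ p F c h) : ∃ k : ℕ, ∀ (e : Chart n X) (ε : OpenPartialHomeomorph E (Cm n)),
      IsCh p e ε → ∀ ξ, ∀ z ∈ ε.target, ∃ C : ℝ, ∀ᶠ z' in 𝓝 z,
        Reg (n := n) p F (ε.symm z') → ∀ g : Γ,
          ‖dt F ε z' ξ * h (g • ε.symm z')‖ ≤ C * (1 + ‖c g‖) ^ k := by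
  obtain ⟨k, hk⟩ := hh.growth
  refine ⟨k, fun e ε hε ξ z hz => ?_⟩
  have hys := ε.map_target hz
  have hz' : e (p (ε.symm z)) = z := by rw [← hε.eq _ hys, ε.right_inv hz]
  obtain ⟨C, hC⟩ := hk (ε.symm z) e (F ∘ ε.symm) (hε.at hys)
    (by rw [hz']; exact F_an hA hε hz) (hε.ev hys) ξ
  refine ⟨C, ?_⟩
  filter_upwards [(symm_tendsto hz).eventually hC, ε.open_target.mem_nhds hz] with z' h1 h2 h3 g
  have h4 := h1 h3 g
  have h5 : e (p (ε.symm z')) = z' := by rw [← hε.eq _ (ε.map_target h2), ε.right_inv h2]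
  rwa [h5] at h4

/-- columns `e_{I j}` -/
def sg (I : Fin q → Fin n) : Fin q → Cm n := fun j => Pi.single (I j) 1

theorem det_expand (A : Cm n →L[ℂ] Cm q) (η : Fin q → Cm n) :
    (Matrix.of fun i j => A (η j) i).det =
      ∑ I : Fin q → Fin n, (∏ j, η j (I j)) * (Matrix.of fun i j => A (sg I j) i).det := by
  have h1 : ∀ u : Cm n, A u = ∑ l, u l • A (Pi.single l 1) := by
    intro u
    conv_lhs => rw [← Finset.univ_sum_single u]
    rw [map_sum]
    refine Finset.sum_congr rfl fun l _ => ?_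
    rw [← map_smul]
    congr 1
    rw [← Pi.single_smul]
    simp
  have h2 : ∀ M : Fin q → Cm q, (Matrix.of fun i j => M j i).det =
      Matrix.detRowAlternating (R := ℂ) (n := Fin q) M := by
    intro M
    have : (Matrix.of fun i j => M j i) = (Matrix.of M)ᵀ := by
      ext i j; rfl
    rw [this, Matrix.det_transpose]
    rfl
  rw [h2]
  have h3 : (fun j => A (η j)) = fun j => ∑ l, η j l • A (Pi.single l 1) := funext fun j => h1 _
  rw [h3]
  have h4 := (Matrix.detRowAlternating (R := ℂ) (n := Fin q)).toMultilinearMap.map_sum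
    (fun (j : Fin q) (l : Fin n) => η j l • A (Pi.single l 1))
  refine h4.trans (Finset.sum_congr rfl fun I _ => ?_)
  rw [h2]
  have h5 := (Matrix.detRowAlternating (R := ℂ) (n := Fin q)).toMultilinearMap.map_smul_univ
    (fun j => η j (I j)) (fun j => A (Pi.single (I j) 1))
  exact h5

theorem dt_le_sum (z : Cm n) (A : Cm n →L[ℂ] Cm n) {ξ : Fin q → Cm n} {C : ℝ}
    (hC : ∏ j, ‖A (ξ j)‖ ≤ C) :
    ‖dt F ε' z fun j => A (ξ j)‖ ≤ C * ∑ I : Fin q → Fin n, ‖dt F ε' z (sg I)‖ := by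
  rw [dt, det_expand, Finset.mul_sum]
  refine (norm_sum_le _ _).trans (Finset.sum_le_sum fun I _ => ?_)
  rw [norm_mul, norm_prod]
  refine mul_le_mul_of_nonneg_right (le_trans ?_ hC) (norm_nonneg _)
  exact Finset.prod_le_prod (fun _ _ => norm_nonneg _) fun j _ => norm_le_pi_norm _ _

/-- (f) change of chart -/
theorem chart_change (hp : IsGalois Γ p) (hA : Per p w F c) (hε : IsCh p e ε)
    (hε' : IsCh p e' ε') (g : Γ) {y : E} (hy : y ∈ ε.source) (hy' : g • y ∈ ε'.source)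
    (ξ : Fin q → Cm n) : ∃ C : ℝ, 0 ≤ C ∧ ∀ᶠ y' in 𝓝 y,
      ‖dt F ε (ε y') ξ‖ ≤ C * ∑ I : Fin q → Fin n, ‖dt F ε' (ε' (g • y')) (sg I)‖ := by
  have hay : At e (p y) := hε.at hy
  have hay' : At e' (p y) := by
    have := hε'.at hy'
    rwa [p_smul hp] at this
  -- the transition map
  have hτ : ∀ᶠ z in 𝓝 (ε y), DifferentiableAt ℂ (fun z => e' (e.symm z)) z := by
    have h1 : ∀ᶠ z in 𝓝 (e (p y)), At e (e.symm z) ∧ At e' (e.symm z) ∧ e (e.symm z) = z := by
      filter_upwards [hay.nhds_at hay'] with z hz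
      exact ⟨hz.2.1, hz.2.2, e.right_inv hz.1⟩
    rw [hε.eq y hy]
    filter_upwards [h1] with z hz
    have := transition_differentiableAt hz.1 hz.2.1
    rwa [hz.2.2] at this
  have hτc : ∀ j, ContinuousAt (fun z => fderiv ℂ (fun z => e' (e.symm z)) z (ξ j)) (ε y) := by
    intro j
    obtain ⟨O, hO, hOo, hyO⟩ := _root_.mem_nhds_iff.1 hτ
    have h2 := Vale.Agent.P281.MF.analyticAt_of_differentiableOn hOo
      (fun z hz => (hO hz).differentiableWithinAt) hyO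
    exact h2.fderiv.continuousAt.clm_apply continuousAt_const
  have hpc : ContinuousAt (fun z => ∏ j, ‖fderiv ℂ (fun z => e' (e.symm z)) z (ξ j)‖) (ε y) :=
    tendsto_finsetProd _ fun j _ => (hτc j).norm
  obtain ⟨C, hC0, hC⟩ : ∃ C : ℝ, 0 ≤ C ∧ ∀ᶠ z in 𝓝 (ε y),
      ∏ j, ‖fderiv ℂ (fun z => e' (e.symm z)) z (ξ j)‖ ≤ C := by
    refine ⟨(∏ j, ‖fderiv ℂ (fun z => e' (e.symm z)) (ε y) (ξ j)‖) + 1, by positivity, ?_⟩
    exact (hpc.eventually (gt_mem_nhds (lt_add_one _))).mono fun z hz => le_of_lt hz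
  refine ⟨C, hC0, ?_⟩
  -- `F ∘ ε.symm + c g = (F ∘ ε'.symm) ∘ τ`
  have hrep : ∀ᶠ z in 𝓝 (ε y), (F ∘ ε.symm) z + c g = (F ∘ ε'.symm) (e' (e.symm z)) := by
    have h1 : Tendsto (fun z => g • ε.symm z) (𝓝 (ε y)) (𝓝 (g • y)) := by
      have := ((hp.cont g).tendsto (ε.symm (ε y))).comp (symm_tendsto (ε.map_source hy))
      rwa [ε.left_inv hy] at this
    filter_upwards [h1.eventually (hε'.ev (F := F) hy'), ε.open_target.mem_nhds (ε.map_source hy)]
      with z h2 h3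
    rw [Function.comp_apply, ← hA.equiv g, h2, p_smul hp]
    have h4 : e.symm z = p (ε.symm z) := by
      have h5 : e (p (ε.symm z)) = z := by rw [← hε.eq _ (ε.map_target h3), ε.right_inv h3]
      conv_lhs => rw [← h5]
      exact e.left_inv (hε.src _ (ε.map_target h3))
    rw [h4]
  have hcont : Tendsto ε (𝓝 y) (𝓝 (ε y)) := ε.continuousAt hy
  have hgc : Tendsto (fun y' => g • y') (𝓝 y) (𝓝 (g • y)) := (hp.cont g).tendsto y
  filter_upwards [hcont.eventually hC, hcont.eventually hτ,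
    hcont.eventually (eventually_eventually_nhds.2 hrep), ε.open_source.mem_nhds hy,
    hgc.eventually (ε'.open_source.mem_nhds hy')] with y' h1 h2 h3 h4 h5
  have hpy : e.symm (ε y') = p y' := by
    rw [hε.eq y' h4]
    exact e.left_inv (hε.src _ h4)
  have hτy : e' (e.symm (ε y')) = ε' (g • y') := by
    rw [hpy, hε'.eq _ h5, p_smul hp]
  have hfd : fderiv ℂ (F ∘ ε.symm) (ε y') =
      (fderiv ℂ (F ∘ ε'.symm) (ε' (g • y'))).comp (fderiv ℂ (fun z => e' (e.symm z)) (ε y')) := by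
    have h6 : fderiv ℂ (fun z => (F ∘ ε.symm) z + c g) (ε y') = fderiv ℂ (F ∘ ε.symm) (ε y') :=
      fderiv_add_const _
    rw [← h6, Filter.EventuallyEq.fderiv_eq h3]
    have hd : DifferentiableAt ℂ (F ∘ ε'.symm) (e' (e.symm (ε y'))) := by
      rw [hτy]
      exact (F_an hA hε' (ε'.map_source h5)).differentiableAt
    have h7 := fderiv_comp (g := F ∘ ε'.symm) (f := fun z => e' (e.symm z)) (ε y') hd h2
    rw [hτy] at h7
    exact h7
  have h8 : dt F ε (ε y') ξ = dt F ε' (ε' (g • y')) fun j =>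
      fderiv ℂ (fun z => e' (e.symm z)) (ε y') (ξ j) := by
    rw [dt, dt, hfd]
    rfl
  rw [h8]
  exact dt_le_sum _ _ h1

end

end Vale.Agent.P284.H661.Lim
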