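import Vale.Agent.P284.H661.Lim3

/-!
# P284, MF(I), the limit: the weighted families
-/

open scoped Manifold ContDiff Topology ENNReal Matrix
open Filter Set Metric MeasureTheory

noncomputable section

namespace Vale.Agent.P284.H661.Lim

open Vale.Agent.P272.K Vale.Agent.P284.H573 Vale.Agent.P284.H894.G Vale.Agent.P284.H894.W
  Vale.Agent.P284.H494 Vale.Agent.P284.H672 Vale.Agent.P284.H10 Vale.Agent.P284.H224

section
variable {n : ℕ} {X : Type} [TopologicalSpace X] [ChartedSpace (Cm n) X] {E : Type}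
  [TopologicalSpace E] {p : E → X} {Γ : Type} [Group Γ] [MulAction Γ E]
  {w : Chart n X → Cm n → Matrix (Fin n) (Fin n) ℂ} {q : ℕ} {F : E → Cm q} {c : Γ → Cm q}
  {h : E → ℂ}

theorem exists_ch' (hp : IsCoveringMap p) {y : E} {e : Chart n X} (he : At e (p y)) :
    ∃ ε : OpenPartialHomeomorph E (Cm n), IsCh p e ε ∧ y ∈ ε.source := by
  obtain ⟨f, hf1, hf2⟩ := hp.isLocalHomeomorph y
  refine ⟨f.trans e, ⟨he.1, ?_, ?_⟩, ?_⟩
  · intro y' hy'
    rw [OpenPartialHomeomorph.trans_source] at hy'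
    have h3 : f y' ∈ e.source := hy'.2
    rw [← hf2] at h3
    exact h3
  · intro y' _
    show e (f y') = e (p y')
    rw [← hf2]
  · rw [OpenPartialHomeomorph.trans_source]
    refine ⟨hf1, ?_⟩
    show f y ∈ e.source
    rw [← hf2]
    exact he.2

variable (n) in
/-- the data -/
structure Ctx (p : E → X) (w : Chart n X → Cm n → Matrix (Fin n) (Fin n) ℂ) (F : E → Cm q)
    (c : Γ → Cm q) (h : E → ℂ) : Prop where
  gal : IsGalois Γ p
  per : Per p w F c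
  ex : ExFun n Γ p F c h
  dense : Dense {y : E | Reg (n := n) p F y}
  ne : Nonempty E

/-- a chart of `E` -/
structure Pt (p : E → X) where
  e : Chart n X
  ε : OpenPartialHomeomorph E (Cm n)
  is : IsCh p e ε

namespace Ctx
variable (K : Ctx n p w F c h)

/-- the group of periods -/
def Lam : AddSubgroup (Cm q) where
  carrier := {v | ∃ g, c g = v}
  add_mem' := by
    have := K.ne
    rintro _ _ ⟨g, rfl⟩ ⟨g', rfl⟩
    exact ⟨g * g', per_add K.per g g'⟩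
  zero_mem' := by
    have := K.ne
    exact ⟨1, per_one K.per⟩
  neg_mem' := by
    have := K.ne
    rintro _ ⟨g, rfl⟩
    exact ⟨g⁻¹, per_inv K.per g⟩

/-- a group element with given period -/
def sc (l : K.Lam) : Γ := l.2.choose

theorem c_sc (l : K.Lam) : c (K.sc l) = l := l.2.choose_spec

/-- the period of a group element -/
def pe (g : Γ) : K.Lam := ⟨c g, g, rfl⟩

include K in
theorem reg_smul {g : Γ} {y : E} : Reg (n := n) p F (g • y) ↔ Reg (n := n) p F y :=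
  per_reg_iff K.gal K.per

include K in
theorem h_eq {g g' : Γ} (hc : c g = c g') {y : E} (hr : Reg (n := n) p F y) :
    h (g • y) = h (g' • y) := by
  have := K.ne
  have h1 : c (g * g'⁻¹) = 0 := by
    rw [per_add K.per, per_inv K.per, hc, add_neg_cancel]
  have h2 := K.ex.ker _ h1 (g' • y) (K.reg_smul.2 hr)
  rw [← h2, smul_smul]
  congr 2
  group

/-- the weights -/
def wt (s : ℝ) (l : K.Lam) : ℝ := Real.exp (-(s * ‖(l : Cm q)‖))

theorem wt_pos (s : ℝ) (l : K.Lam) : 0 < K.wt s l := Real.exp_pos _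

theorem wt_shift {s : ℝ} (hs : 0 ≤ s) (l m : K.Lam) :
    K.wt s (l + m) ≤ Real.exp (s * ‖(m : Cm q)‖) * K.wt s l := by
  rw [wt, wt, ← Real.exp_add]
  refine Real.exp_le_exp.2 ?_
  have h1 : ‖(l : Cm q)‖ ≤ ‖((l + m : K.Lam) : Cm q)‖ + ‖(m : Cm q)‖ := by
    calc ‖(l : Cm q)‖ = ‖((l : Cm q) + m) - m‖ := by rw [add_sub_cancel_right]
      _ ≤ _ := norm_sub_le _ _
  nlinarith

theorem wt_shift' {s : ℝ} (hs : 0 ≤ s) (l m : K.Lam) :
    K.wt s l ≤ Real.exp (s * ‖(m : Cm q)‖) * K.wt s (l + m) := by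
  have h1 := K.wt_shift hs (l + m) (-m)
  rw [add_neg_cancel_right] at h1
  simpa using h1

theorem wt_diff {s : ℝ} (hs : 0 ≤ s) (l m : K.Lam) :
    |K.wt s l - K.wt s (l + m)| ≤ (Real.exp (s * ‖(m : Cm q)‖) - 1) * K.wt s (l + m) := by
  have h1 := K.wt_shift' hs l m
  have h2 := K.wt_shift hs l m
  have h0 := K.wt_pos s (l + m)
  have h0' := K.wt_pos s l
  set E := Real.exp (s * ‖(m : Cm q)‖) with hE
  have hE1 : 1 ≤ E := Real.one_le_exp (by positivity)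
  rw [abs_le]
  constructor
  · -- `wt (l+m) - wt l ≤ (E-1) wt (l+m)`
    -- `wt l ≥ wt (l+m) / E ≥ (2 - E) wt (l+m)`
    have h3 : (2 - E) * K.wt s (l + m) ≤ K.wt s l := by
      rcases le_or_gt (2 - E) 0 with h4 | h4
      · exact (mul_nonpos_of_nonpos_of_nonneg h4 h0.le).trans h0'.le
      · calc (2 - E) * K.wt s (l + m) ≤ (2 - E) * (E * K.wt s l) :=
              mul_le_mul_of_nonneg_left h2 h4.le
          _ = ((2 - E) * E) * K.wt s l := by ring
          _ ≤ 1 * K.wt s l := mul_le_mul_of_nonneg_right (by nlinarith [sq_nonneg (E - 1)]) h0'.le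
          _ = K.wt s l := one_mul _
    linarith
  · linarith

/-- the sum of the weights -/
theorem summable_wt {s : ℝ} (hs : 0 < s) (k : ℕ) :
    Summable fun l : K.Lam => K.wt s l * (1 + ‖(l : Cm q)‖) ^ k :=
  summable_w (Λ := K.Lam) K.per.disc hs k

/-- the exponent of the growth -/
def gk : ℕ := (growth_ch K.per K.ex).choose

/-- the analytic extension of `det · h (g y)` -/
def Ph (a : Pt (n := n) p) (g : Γ) (ξ : Fin q → Cm n) : Cm n → ℂ :=
  (ext_shift K.gal K.per K.dense K.ex.toSheetHol a.is g ξ).choose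

theorem Ph_an (a : Pt (n := n) p) (g : Γ) (ξ : Fin q → Cm n) {z : Cm n} (hz : z ∈ a.ε.target) :
    AnalyticAt ℂ (K.Ph a g ξ) z :=
  (ext_shift K.gal K.per K.dense K.ex.toSheetHol a.is g ξ).choose_spec.1 z hz

theorem Ph_eq (a : Pt (n := n) p) (g : Γ) (ξ : Fin q → Cm n) {z : Cm n} (hz : z ∈ a.ε.target)
    (hr : Reg (n := n) p F (a.ε.symm z)) :
    K.Ph a g ξ z = dt F a.ε z ξ * h (g • a.ε.symm z) :=
  (ext_shift K.gal K.per K.dense K.ex.toSheetHol a.is g ξ).choose_spec.2 z hz hr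

include K in
theorem tgt (a : Pt (n := n) p) :
    a.ε.target ⊆ closure {z | z ∈ a.ε.target ∧ Reg (n := n) p F (a.ε.symm z)} :=
  tgt_closure K.dense

theorem Ph_bound (a : Pt (n := n) p) (ξ : Fin q → Cm n) {z : Cm n} (hz : z ∈ a.ε.target) :
    ∃ C : ℝ, ∀ᶠ z' in 𝓝 z, z' ∈ a.ε.target ∧
      ∀ g : Γ, ‖K.Ph a g ξ z'‖ ≤ C * (1 + ‖c g‖) ^ K.gk := by
  obtain ⟨C, hC⟩ := (growth_ch K.per K.ex).choose_spec a.e a.ε a.is ξ z hz
  obtain ⟨O, hO, hOo, hzO⟩ := _root_.mem_nhds_iff.1 (Filter.inter_mem hC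
    (a.ε.open_target.mem_nhds hz))
  refine ⟨C, ?_⟩
  filter_upwards [hOo.mem_nhds hzO] with z' hz'
  refine ⟨(hO hz').2, fun g => ?_⟩
  refine bound_ext hOo (fun x hx => K.tgt a (hO hx).2) (fun x hx => K.Ph_an a g ξ (hO hx).2)
    (fun x hx hxA => ?_) hz'
  rw [K.Ph_eq a g ξ (hO hx).2 hxA.2]
  exact (hO hx).1 hxA.2 g

theorem mem_S (a : Pt (n := n) p) (ξ : Fin q → Cm n) {s : ℝ} (hs : 0 < s) {z : Cm n}
    (hz : z ∈ a.ε.target) :
    Memℓp (fun l : K.Lam => (K.wt s l : ℂ) * K.Ph a (K.sc l) ξ z) 2 := by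
  obtain ⟨C, hC⟩ := K.Ph_bound a ξ hz
  have h1 := hC.self_of_nhds.2
  refine mem_of_summable (Summable.of_nonneg_of_le (fun l => norm_nonneg _) (fun l => ?_)
    ((K.summable_wt hs K.gk).mul_left C))
  have h2 := h1 (K.sc l)
  rw [K.c_sc] at h2
  rw [norm_mul, Complex.norm_real, Real.norm_of_nonneg (K.wt_pos s l).le]
  calc K.wt s l * ‖K.Ph a (K.sc l) ξ z‖ ≤ K.wt s l * (C * (1 + ‖(l : Cm q)‖) ^ K.gk) :=
        mul_le_mul_of_nonneg_left h2 (K.wt_pos s l).le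
    _ = C * (K.wt s l * (1 + ‖(l : Cm q)‖) ^ K.gk) := by ring

/-- the vector of the values `det · h (g y)` -/
def Sv (s : ℝ) (a : Pt (n := n) p) (ξ : Fin q → Cm n) (z : Cm n) : L2 K.Lam :=
  vec fun l => (K.wt s l : ℂ) * K.Ph a (K.sc l) ξ z

/-- the vector of the values `h (g y)` -/
def Tv (s : ℝ) (y : E) : L2 K.Lam := vec fun l => (K.wt s l : ℂ) * h (K.sc l • y)

theorem exists_det {L : Cm n →L[ℂ] Cm q} (hL : Function.Surjective L) :
    ∃ I : Fin q → Fin n, (Matrix.of fun i j => L (sg I j) i).det ≠ 0 := by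
  choose η hη using fun j : Fin q => hL (Pi.single j 1)
  have h1 : (Matrix.of fun i j => L (η j) i) = (1 : Matrix (Fin q) (Fin q) ℂ) := by
    ext i j
    rw [Matrix.of_apply, hη, Matrix.one_apply, Pi.single_apply]
  have h2 := det_expand L η
  rw [h1, Matrix.det_one] at h2
  by_contra h3
  push Not at h3
  simp only [h3, mul_zero, Finset.sum_const_zero] at h2
  exact one_ne_zero h2

variable [IsManifold 𝓘(ℂ, Cm n) ω X]

include K in
theorem exists_dt (a : Pt (n := n) p) {z : Cm n} (hz : z ∈ a.ε.target)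
    (hr : Reg (n := n) p F (a.ε.symm z)) : ∃ I : Fin q → Fin n, dt F a.ε z (sg I) ≠ 0 := by
  obtain ⟨B, hB⟩ := K.per.hol
  have h1 := (a.is.reg_iff K.gal.cov hB (a.ε.map_target hz)).1 hr
  rw [a.ε.right_inv hz] at h1
  exact exists_det h1

theorem mem_T {s : ℝ} (hs : 0 < s) {y : E} (hr : Reg (n := n) p F y) :
    Memℓp (fun l : K.Lam => (K.wt s l : ℂ) * h (K.sc l • y)) 2 := by
  obtain ⟨e, ε, hε, hyε, -, -⟩ := exists_ch (n := n) K.gal.cov y univ_mem
  let a : Pt (n := n) p := ⟨e, ε, hε⟩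
  have hz : ε y ∈ a.ε.target := ε.map_source hyε
  have hy : a.ε.symm (ε y) = y := ε.left_inv hyε
  obtain ⟨I, hI⟩ := K.exists_dt a hz (by rwa [hy])
  have h1 := (K.mem_S a (sg I) hs hz).const_smul (dt F a.ε (ε y) (sg I))⁻¹
  have h2 : (fun l : K.Lam => (K.wt s l : ℂ) * h (K.sc l • y)) =
      (dt F a.ε (ε y) (sg I))⁻¹ • fun l : K.Lam => (K.wt s l : ℂ) * K.Ph a (K.sc l) (sg I) (ε y) := by
    funext l
    rw [Pi.smul_apply, smul_eq_mul, K.Ph_eq a _ _ hz (by rwa [hy]), hy]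
    field_simp
  rw [h2]
  exact h1

theorem S_eq (a : Pt (n := n) p) (ξ : Fin q → Cm n) {s : ℝ} (hs : 0 < s) {z : Cm n}
    (hz : z ∈ a.ε.target) (hr : Reg (n := n) p F (a.ε.symm z)) :
    K.Sv s a ξ z = dt F a.ε z ξ • K.Tv s (a.ε.symm z) := by
  rw [Sv, Tv, vec_smul _ (K.mem_T hs hr)]
  congr 1
  funext l
  rw [K.Ph_eq a _ _ hz hr]
  ring

omit [IsManifold 𝓘(ℂ, Cm n) ω X] in
/-- the vectors depend holomorphically on the point -/
theorem S_diff (a : Pt (n := n) p) (ξ : Fin q → Cm n) {z : Cm n} (hz : z ∈ a.ε.target) :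
    ∃ r > 0, ball z r ⊆ a.ε.target ∧ ∀ s : ℝ, 0 < s → DifferentiableOn ℂ (K.Sv s a ξ) (ball z r) := by
  classical
  obtain ⟨C, hC⟩ := K.Ph_bound a ξ hz
  obtain ⟨r, hr, hb⟩ := Metric.eventually_nhds_iff_ball.1 hC
  refine ⟨r, hr, fun x hx => (hb x hx).1, fun s hs => ?_⟩
  have h1 := diff_tsum (n := n) (G := L2 K.Lam) (c := z) (R := r)
    (f := fun (l : K.Lam) x => lp.single 2 l ((K.wt s l : ℂ) * K.Ph a (K.sc l) ξ x))
    ((K.summable_wt hs K.gk).mul_left C) (fun l x hx => ?_) (fun l x hx => ?_)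
  · refine h1.congr fun x hx => ?_
    exact vec_tsum (K.mem_S a ξ hs (hb x hx).1)
  · have h2 : DifferentiableAt ℂ (fun x => (K.wt s l : ℂ) * K.Ph a (K.sc l) ξ x) x :=
      (K.Ph_an a _ ξ (hb x hx).1).differentiableAt.const_mul _
    have h3 : (fun x => lp.single (E := fun _ : K.Lam => ℂ) 2 l
        ((K.wt s l : ℂ) * K.Ph a (K.sc l) ξ x)) =
        fun x => ((K.wt s l : ℂ) * K.Ph a (K.sc l) ξ x) •
          lp.single (E := fun _ : K.Lam => ℂ) 2 l (1 : ℂ) := by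
      funext x
      rw [← lp.single_smul, smul_eq_mul, mul_one]
    show DifferentiableWithinAt ℂ (fun x => lp.single (E := fun _ : K.Lam => ℂ) 2 l
        ((K.wt s l : ℂ) * K.Ph a (K.sc l) ξ x)) _ _
    rw [h3]
    exact (h2.smul_const _).differentiableWithinAt
  · have h4 := (hb x hx).2 (K.sc l)
    rw [K.c_sc] at h4
    have h5 : ‖lp.single (E := fun _ : K.Lam => ℂ) 2 l ((K.wt s l : ℂ) * K.Ph a (K.sc l) ξ x)‖ =
        ‖(K.wt s l : ℂ) * K.Ph a (K.sc l) ξ x‖ := lp.norm_single (by norm_num) _ _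
    show ‖lp.single (E := fun _ : K.Lam => ℂ) 2 l ((K.wt s l : ℂ) * K.Ph a (K.sc l) ξ x)‖ ≤ _
    rw [h5, norm_mul, Complex.norm_real, Real.norm_of_nonneg (K.wt_pos s l).le]
    calc K.wt s l * ‖K.Ph a (K.sc l) ξ x‖ ≤ K.wt s l * (C * (1 + ‖(l : Cm q)‖) ^ K.gk) :=
          mul_le_mul_of_nonneg_left h4 (K.wt_pos s l).le
      _ = C * (K.wt s l * (1 + ‖(l : Cm q)‖) ^ K.gk) := by ring

/-- translation -/
theorem T_smul {s : ℝ} (hs : 0 < s) (g : Γ) {y : E} (hr : Reg (n := n) p F y) (l : K.Lam) :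
    K.Tv s (g • y) l = (K.wt s l : ℂ) * h (K.sc (l + K.pe g) • y) := by
  rw [Tv, vec_apply (K.mem_T hs (K.reg_smul.2 hr)), smul_smul]
  congr 1
  refine K.h_eq ?_ hr
  have := K.ne
  rw [per_add K.per, K.c_sc, K.c_sc]
  rfl

/-- the shift -/
def sh (m : K.Lam) : L2 K.Lam ≃ₗᵢ[ℂ] L2 K.Lam := rei (Equiv.addRight m)

theorem sh_T {s : ℝ} (hs : 0 < s) (m : K.Lam) {y : E} (hr : Reg (n := n) p F y) (l : K.Lam) :
    K.sh m (K.Tv s y) l = (K.wt s (l + m) : ℂ) * h (K.sc (l + m) • y) := by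
  rw [sh, rei_apply, Equiv.coe_addRight, Tv, vec_apply (K.mem_T hs hr)]

theorem T_le {s : ℝ} (hs : 0 < s) (g : Γ) {y : E} (hr : Reg (n := n) p F y) :
    ‖K.Tv s y‖ ≤ Real.exp (s * ‖c g‖) * ‖K.Tv s (g • y)‖ := by
  rw [← (K.sh (K.pe g)).norm_map (K.Tv s y)]
  refine norm_le_of (Real.exp_pos _).le fun l => ?_
  rw [K.sh_T hs _ hr, K.T_smul hs g hr, norm_mul, norm_mul, Complex.norm_real, Complex.norm_real,
    Real.norm_of_nonneg (K.wt_pos s _).le, Real.norm_of_nonneg (K.wt_pos s _).le, ← mul_assoc]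
  exact mul_le_mul_of_nonneg_right (K.wt_shift hs.le l (K.pe g)) (norm_nonneg _)

theorem T_diff {s : ℝ} (hs : 0 < s) (g : Γ) {y : E} (hr : Reg (n := n) p F y) :
    ‖K.Tv s (g • y) - K.sh (K.pe g) (K.Tv s y)‖ ≤ (Real.exp (s * ‖c g‖) - 1) * ‖K.Tv s y‖ := by
  rw [← (K.sh (K.pe g)).norm_map (K.Tv s y)]
  have h1 : 1 ≤ Real.exp (s * ‖c g‖) := Real.one_le_exp (by positivity)
  refine norm_le_of (by linarith) fun l => ?_
  rw [lp.coeFn_sub, Pi.sub_apply, K.sh_T hs _ hr, K.T_smul hs g hr, ← sub_mul, norm_mul, norm_mul,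
    ← Complex.ofReal_sub, Complex.norm_real, Complex.norm_real, Real.norm_eq_abs,
    Real.norm_of_nonneg (K.wt_pos s _).le, ← mul_assoc]
  exact mul_le_mul_of_nonneg_right (K.wt_diff hs.le l (K.pe g)) (norm_nonneg _)

end Ctx

end

end Vale.Agent.P284.H661.Lim
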