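import Vale.Agent.P284.H661.Lim4

/-!
# P284, MF(I), the limit: normalisation and local bounds
-/

open scoped Manifold ContDiff Topology ENNReal Matrix
open Filter Set Metric MeasureTheory

noncomputable section

namespace Vale.Agent.P284.H661.Lim

open Vale.Agent.P272.K Vale.Agent.P284.H573 Vale.Agent.P284.H894.G Vale.Agent.P284.H894.W
  Vale.Agent.P284.H494 Vale.Agent.P284.H672 Vale.Agent.P284.H10 Vale.Agent.P284.H224

section
variable {n : ℕ} {X : Type} [TopologicalSpace X] [ChartedSpace (Cm n) X] {E : Type}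
  [TopologicalSpace E] {p : E → X} {Γ : Type} [Group Γ] [MulAction Γ E]
  {w : Chart n X → Cm n → Matrix (Fin n) (Fin n) ℂ} {q : ℕ} {F : E → Cm q} {c : Γ → Cm q}
  {h : E → ℂ}

namespace Ctx
variable (K : Ctx n p w F c h)

theorem good_ball (a : Pt (n := n) p) {z : Cm n} (hz : z ∈ a.ε.target) :
    ∃ r > 0, closedBall z r ⊆ a.ε.target ∧ ∃ C : ℝ, ∀ I : Fin q → Fin n, ∀ z' ∈ ball z r,
      ∀ g : Γ, ‖K.Ph a g (sg I) z'‖ ≤ C * (1 + ‖c g‖) ^ K.gk := by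
  choose C hC using fun I : Fin q → Fin n => K.Ph_bound a (sg I) hz
  have h1 : ∀ᶠ z' in 𝓝 z, ∀ I : Fin q → Fin n, z' ∈ a.ε.target ∧
      ∀ g : Γ, ‖K.Ph a g (sg I) z'‖ ≤ C I * (1 + ‖c g‖) ^ K.gk :=
    eventually_all.2 hC
  obtain ⟨r, hr, hb⟩ := Metric.eventually_nhds_iff_ball.1
    (h1.and (a.ε.open_target.mem_nhds hz))
  refine ⟨r / 2, by positivity, fun x hx => (hb x (closedBall_subset_ball (by linarith) hx)).2,
    ∑ I, |C I|, fun I z' hz' g => ?_⟩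
  refine ((hb z' (ball_subset_ball (by linarith) hz')).1 I).2 g |>.trans ?_
  refine mul_le_mul_of_nonneg_right ((le_abs_self _).trans ?_) (by positivity)
  exact Finset.single_le_sum (f := fun I => |C I|) (fun _ _ => abs_nonneg _) (Finset.mem_univ I)

end Ctx

/-- a finite cover modulo `Γ` -/
structure Cv (K : Ctx n p w F c h) where
  t : Finset E
  a : E → Pt (n := n) p
  r : E → ℝ
  mem : ∀ y, y ∈ (a y).ε.source
  pos : ∀ y, 0 < r y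
  sub : ∀ y, closedBall ((a y).ε y) (r y) ⊆ (a y).ε.target
  bd : ∀ y, ∃ C : ℝ, ∀ I : Fin q → Fin n, ∀ z ∈ ball ((a y).ε y) (r y), ∀ g : Γ,
    ‖K.Ph (a y) g (sg I) z‖ ≤ C * (1 + ‖c g‖) ^ K.gk
  cov : ∀ y', ∃ γ : Γ, ∃ y ∈ t, γ • y' ∈ (a y).ε.source ∧
    (a y).ε (γ • y') ∈ ball ((a y).ε y) (r y)

theorem Ctx.exists_cv [CompactSpace X] (K : Ctx n p w F c h) : Nonempty (Cv K) := by
  choose e ε hε hyε _ _ using fun y : E => exists_ch (n := n) K.gal.cov y univ_mem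
  let a : E → Pt (n := n) p := fun y => ⟨e y, ε y, hε y⟩
  choose r hr hsub hbd using fun y : E => K.good_ball (a y) ((ε y).map_source (hyε y))
  obtain ⟨C, hC, hcov⟩ := exists_compact_X K.gal n
  obtain ⟨t, -, ht⟩ := hC.elim_nhds_subcover
    (fun y => {y' | y' ∈ (ε y).source ∧ (ε y) y' ∈ ball ((ε y) y) (r y)})
    (fun y _ => inter_mem ((ε y).open_source.mem_nhds (hyε y))
      (((ε y).continuousAt (hyε y)).preimage_mem_nhds (ball_mem_nhds _ (hr y))))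
  refine ⟨⟨t, a, r, hyε, hr, hsub, hbd, fun y' => ?_⟩⟩
  obtain ⟨γ, hγ⟩ := hcov y'
  obtain ⟨y, hy, h1⟩ := mem_iUnion₂.1 (ht hγ)
  exact ⟨γ, y, hy, h1⟩

namespace Cv
variable {K : Ctx n p w F c h} (D : Cv K)

/-- the set of norms -/
def MS (s : ℝ) : Set ℝ := {x | ∃ y ∈ D.t, ∃ I : Fin q → Fin n,
  ∃ z ∈ ball ((D.a y).ε y) (D.r y), x = ‖K.Sv s (D.a y) (sg I) z‖}

/-- the normalisation -/
def M (s : ℝ) : ℝ := sSup (D.MS s)

theorem norm_S_le {a : Pt (n := n) p} {ξ : Fin q → Cm n} {z : Cm n} (hz : z ∈ a.ε.target)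
    {C : ℝ} (hC : ∀ g : Γ, ‖K.Ph a g ξ z‖ ≤ C * (1 + ‖c g‖) ^ K.gk) {s : ℝ} (hs : 0 < s) :
    ‖K.Sv s a ξ z‖ ≤ C * ∑' l : K.Lam, K.wt s l * (1 + ‖(l : Cm q)‖) ^ K.gk := by
  classical
  have h1 : K.Sv s a ξ z = ∑' l, lp.single 2 l ((K.wt s l : ℂ) * K.Ph a (K.sc l) ξ z) :=
    vec_tsum (K.mem_S a ξ hs hz)
  have h2 : ∀ l : K.Lam, ‖lp.single (E := fun _ : K.Lam => ℂ) 2 l
      ((K.wt s l : ℂ) * K.Ph a (K.sc l) ξ z)‖ ≤ C * (K.wt s l * (1 + ‖(l : Cm q)‖) ^ K.gk) := by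
    intro l
    have h5 : ‖lp.single (E := fun _ : K.Lam => ℂ) 2 l ((K.wt s l : ℂ) * K.Ph a (K.sc l) ξ z)‖ =
        ‖(K.wt s l : ℂ) * K.Ph a (K.sc l) ξ z‖ := lp.norm_single (by norm_num) _ _
    have h4 := hC (K.sc l)
    rw [K.c_sc] at h4
    rw [h5, norm_mul, Complex.norm_real, Real.norm_of_nonneg (K.wt_pos s l).le]
    calc K.wt s l * ‖K.Ph a (K.sc l) ξ z‖ ≤ K.wt s l * (C * (1 + ‖(l : Cm q)‖) ^ K.gk) :=
          mul_le_mul_of_nonneg_left h4 (K.wt_pos s l).le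
      _ = C * (K.wt s l * (1 + ‖(l : Cm q)‖) ^ K.gk) := by ring
  rw [h1, ← tsum_mul_left]
  exact tsum_of_norm_bounded ((K.summable_wt hs K.gk).mul_left C).hasSum h2

theorem bdd {s : ℝ} (hs : 0 < s) : BddAbove (D.MS s) := by
  choose C hC using D.bd
  set Z := ∑' l : K.Lam, K.wt s l * (1 + ‖(l : Cm q)‖) ^ K.gk with hZ
  obtain ⟨B, hB⟩ := (D.t.image fun y => C y * Z).bddAbove
  refine ⟨B, ?_⟩
  rintro _ ⟨y, hy, I, z, hz, rfl⟩
  refine (norm_S_le (D.sub y (ball_subset_closedBall hz)) (fun g => hC y I z hz g) hs).trans ?_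
  exact hB (by
    simp only [Finset.coe_image, mem_image, Finset.mem_coe]
    exact ⟨y, hy, rfl⟩)

theorem le_M {s : ℝ} (hs : 0 < s) {y : E} (hy : y ∈ D.t) (I : Fin q → Fin n) {z : Cm n}
    (hz : z ∈ ball ((D.a y).ε y) (D.r y)) : ‖K.Sv s (D.a y) (sg I) z‖ ≤ D.M s :=
  le_csSup (D.bdd hs) ⟨y, hy, I, z, hz, rfl⟩

variable [IsManifold 𝓘(ℂ, Cm n) ω X]

theorem M_pos {s : ℝ} (hs : 0 < s) : 0 < D.M s := by
  have := K.ne
  obtain ⟨y₀, hr₀, h0⟩ := K.ex.ne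
  obtain ⟨γ, y, hy, h1, h2⟩ := D.cov y₀
  set z := (D.a y).ε (γ • y₀) with hz
  have hzt : z ∈ (D.a y).ε.target := (D.a y).ε.map_source h1
  have hsym : (D.a y).ε.symm z = γ • y₀ := (D.a y).ε.left_inv h1
  have hr : Reg (n := n) p F ((D.a y).ε.symm z) := by
    rw [hsym]
    exact K.reg_smul.2 hr₀
  obtain ⟨I, hI⟩ := K.exists_dt (D.a y) hzt hr
  refine lt_of_lt_of_le ?_ (D.le_M hs hy I h2)
  have h3 := norm_apply_le (K.Sv s (D.a y) (sg I) z) (K.pe γ⁻¹)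
  refine lt_of_lt_of_le ?_ h3
  rw [norm_pos_iff, Ctx.Sv, vec_apply (K.mem_S (D.a y) (sg I) hs hzt), K.Ph_eq _ _ _ hzt hr, hsym]
  have h4 : h (K.sc (K.pe γ⁻¹) • γ • y₀) = h y₀ := by
    rw [smul_smul]
    have h5 := K.h_eq (g := K.sc (K.pe γ⁻¹) * γ) (g' := 1) (by
      rw [per_add K.per, K.c_sc, per_one K.per]
      show c γ⁻¹ + c γ = 0
      rw [per_inv K.per, neg_add_cancel]) hr₀
    rw [h5, one_smul]
  rw [h4]
  exact mul_ne_zero (Complex.ofReal_ne_zero.2 (K.wt_pos s _).ne') (mul_ne_zero hI h0)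

theorem near_M {s : ℝ} (hs : 0 < s) : ∃ y ∈ D.t, ∃ I : Fin q → Fin n,
    ∃ z ∈ ball ((D.a y).ε y) (D.r y), D.M s / 2 < ‖K.Sv s (D.a y) (sg I) z‖ := by
  have h1 := D.M_pos hs
  have h2 : (D.MS s).Nonempty := by
    by_contra h3
    rw [not_nonempty_iff_eq_empty] at h3
    rw [M, h3, Real.sSup_empty] at h1
    exact lt_irrefl _ h1
  obtain ⟨x, ⟨y, hy, I, z, hz, rfl⟩, hx⟩ := exists_lt_of_lt_csSup h2
    (show D.M s / 2 < sSup (D.MS s) from by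
      show D.M s / 2 < D.M s
      linarith)
  exact ⟨y, hy, I, z, hz, hx⟩

/-- the local bound -/
theorem loc_bound (a : Pt (n := n) p) (ξ : Fin q → Cm n) {z : Cm n} (hz : z ∈ a.ε.target) :
    ∃ r > 0, ∃ C : ℝ, 0 ≤ C ∧ ball z r ⊆ a.ε.target ∧ ∀ s : ℝ, 0 < s → s ≤ 1 →
      DifferentiableOn ℂ (K.Sv s a ξ) (ball z r) ∧ ∀ z' ∈ ball z r, ‖K.Sv s a ξ z'‖ ≤ C * D.M s := by
  set y₀ := a.ε.symm z with hy₀
  have hys : y₀ ∈ a.ε.source := a.ε.map_target hz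
  have hεy : a.ε y₀ = z := a.ε.right_inv hz
  obtain ⟨γ, y, hy, h1, h2⟩ := D.cov y₀
  obtain ⟨C, hC0, hC⟩ := chart_change K.gal K.per a.is (D.a y).is γ hys h1 ξ
  obtain ⟨r₁, hr₁, hsub₁, hd₁⟩ := K.S_diff a ξ hz
  have hcont : Tendsto (fun z' => γ • a.ε.symm z') (𝓝 z) (𝓝 (γ • y₀)) :=
    ((K.gal.cont γ).tendsto y₀).comp (symm_tendsto hz)
  have h3 : ∀ᶠ z' in 𝓝 z, γ • a.ε.symm z' ∈ (D.a y).ε.source ∧
      (D.a y).ε (γ • a.ε.symm z') ∈ ball ((D.a y).ε y) (D.r y) :=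
    hcont.eventually (inter_mem ((D.a y).ε.open_source.mem_nhds h1)
      (((D.a y).ε.continuousAt h1).preimage_mem_nhds (isOpen_ball.mem_nhds h2)))
  obtain ⟨r₂, hr₂, hb⟩ := Metric.eventually_nhds_iff_ball.1
    (h3.and ((symm_tendsto hz).eventually hC))
  set r := min r₁ r₂ with hr
  have hrr₁ : ball z r ⊆ ball z r₁ := ball_subset_ball (min_le_left _ _)
  have hrr₂ : ball z r ⊆ ball z r₂ := ball_subset_ball (min_le_right _ _)
  set N : ℝ := (Fintype.card (Fin q → Fin n) : ℝ) with hN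
  refine ⟨r, lt_min hr₁ hr₂, C * (N * Real.exp ‖c γ‖), by positivity,
    hrr₁.trans hsub₁, fun s hs hs1 => ?_⟩
  have hdiff := (hd₁ s hs).mono hrr₁
  refine ⟨hdiff, fun z' hz' => ?_⟩
  refine bound_ext (W := L2 K.Lam) isOpen_ball (fun x hx => K.tgt a (hsub₁ (hrr₁ hx)))
    (fun x hx => Vale.Agent.P281.MF.analyticAt_of_differentiableOn isOpen_ball hdiff hx)
    (fun x hx hxA => ?_) hz'
  obtain ⟨⟨g1, g2⟩, g3⟩ := hb x (hrr₂ hx)
  have hxt := hxA.1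
  rw [K.S_eq a ξ hs hxt hxA.2, norm_smul]
  rw [a.ε.right_inv hxt] at g3
  set y' := a.ε.symm x with hy'
  have hTl := K.T_le hs γ hxA.2
  have hexp : Real.exp (s * ‖c γ‖) ≤ Real.exp ‖c γ‖ :=
    Real.exp_le_exp.2 (mul_le_of_le_one_left (norm_nonneg _) hs1)
  have hI : ∀ I : Fin q → Fin n,
      ‖dt F (D.a y).ε ((D.a y).ε (γ • y')) (sg I)‖ * ‖K.Tv s (γ • y')‖ ≤ D.M s := by
    intro I
    have h5 := D.le_M hs hy I g2
    have h6 : (D.a y).ε.symm ((D.a y).ε (γ • y')) = γ • y' := (D.a y).ε.left_inv g1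
    rw [K.S_eq (D.a y) (sg I) hs ((D.a y).ε.map_source g1) (by
      rw [h6]; exact K.reg_smul.2 hxA.2), norm_smul, h6] at h5
    exact h5
  have hT0 : 0 ≤ ‖K.Tv s (γ • y')‖ := norm_nonneg _
  calc ‖dt F a.ε x ξ‖ * ‖K.Tv s y'‖
      ≤ (C * ∑ I : Fin q → Fin n, ‖dt F (D.a y).ε ((D.a y).ε (γ • y')) (sg I)‖) *
        (Real.exp ‖c γ‖ * ‖K.Tv s (γ • y')‖) :=
        mul_le_mul g3 (hTl.trans (mul_le_mul_of_nonneg_right hexp hT0)) (norm_nonneg _)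
          (by positivity)
    _ = C * Real.exp ‖c γ‖ * ∑ I : Fin q → Fin n,
        ‖dt F (D.a y).ε ((D.a y).ε (γ • y')) (sg I)‖ * ‖K.Tv s (γ • y')‖ := by
        rw [← Finset.sum_mul]; ring
    _ ≤ C * Real.exp ‖c γ‖ * ∑ _I : Fin q → Fin n, D.M s := by
        refine mul_le_mul_of_nonneg_left (Finset.sum_le_sum fun I _ => hI I) (by positivity)
    _ = C * (N * Real.exp ‖c γ‖) * D.M s := by
        rw [Finset.sum_const, nsmul_eq_mul, Finset.card_univ, hN]; ring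

end Cv

end

end Vale.Agent.P284.H661.Lim
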