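import Vale.Agent.P284.H661.Haar3
import Vale.Agent.P284.H335.PushE

/-!
# P284: the push-forward estimate on the covering space, unconditionally
-/

namespace Vale.Agent.P284.H661

/-- **Push-forward ≤ Haar**, on the covering space -/
theorem pushStmt : Vale.Agent.P284.H335.PushStmt :=
  Vale.Agent.P284.H335.push_of haarCocStmt

end Vale.Agent.P284.H661
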