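import Mathlib

/-!
# Rationality of a subspace by recurrence (end of the isotriviality argument)

`V` a finite-dimensional real normed space, `Λ` a cocompact subgroup, `N` a subspace.
-/

namespace Vale.Agent.P284.H661

open Filter Topology

variable {V : Type*} [NormedAddCommGroup V] [NormedSpace ℝ V] [FiniteDimensional ℝ V]

/-- A subgroup is cocompact: every vector is at bounded distance of it. -/
def Cocpt (Λ : AddSubgroup V) : Prop := ∃ R : ℝ, ∀ x : V, ∃ l ∈ Λ, ‖x - l‖ ≤ R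

/-- Simultaneous approximation: for `v : V` and `ε > 0` there are `k ≥ 1` and `l ∈ Λ` with
`‖k v - l‖ < ε`. -/
theorem dirichlet {Λ : AddSubgroup V} (hΛ : Cocpt Λ) (v : V) {ε : ℝ} (hε : 0 < ε) :
    ∃ k : ℕ, 1 ≤ k ∧ ∃ l ∈ Λ, ‖(k : ℝ) • v - l‖ < ε := by
  obtain ⟨R, hR⟩ := hΛ
  choose f hf hfR using hR
  -- the remainders lie in the compact ball of radius `R`
  let u : ℕ → V := fun k => (k : ℝ) • v - f ((k : ℝ) • v)
  have hu : ∀ k, u k ∈ Metric.closedBall (0 : V) R := fun k => by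
    simpa [u, Metric.mem_closedBall, dist_eq_norm] using hfR ((k : ℝ) • v)
  obtain ⟨a, -, φ, hφ, hlim⟩ := (isCompact_closedBall (0 : V) R).tendsto_subseq hu
  have hC : CauchySeq (u ∘ φ) := hlim.cauchySeq
  obtain ⟨M, hM⟩ := (Metric.cauchySeq_iff.1 hC) ε hε
  have h1 := hM (M + 1) (Nat.le_succ M) M le_rfl
  rw [dist_eq_norm] at h1
  have hlt : φ M < φ (M + 1) := hφ (Nat.lt_succ_self M)
  refine ⟨φ (M + 1) - φ M, by omega, f ((φ (M + 1) : ℝ) • v) - f ((φ M : ℝ) • v),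
    Λ.sub_mem (hf _) (hf _), ?_⟩
  have : ((φ (M + 1) - φ M : ℕ) : ℝ) = (φ (M + 1) : ℝ) - (φ M : ℝ) := by
    rw [Nat.cast_sub hlt.le]
  rw [this, sub_smul]
  have h2 : (φ (M + 1) : ℝ) • v - (φ M : ℝ) • v - (f ((φ (M + 1) : ℝ) • v) - f ((φ M : ℝ) • v))
      = (u ∘ φ) (M + 1) - (u ∘ φ) M := by
    simp only [u, Function.comp_apply]
    abel
  rw [h2]
  exact h1

/-- (R1) If the elements of `Λ` close to `N` lie in `N`, then `N` is spanned by `Λ ∩ N`. -/
theorem span_eq_of_near {Λ : AddSubgroup V} (hΛ : Cocpt Λ) (N : Submodule ℝ V) {ε : ℝ}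
    (hε : 0 < ε) (h : ∀ l ∈ Λ, (∃ a ∈ N, ‖l - a‖ < ε) → l ∈ N) :
    Submodule.span ℝ ((Λ : Set V) ∩ N) = N := by
  apply le_antisymm
  · rw [Submodule.span_le]
    exact fun x hx => hx.2
  · intro v hv
    set S := Submodule.span ℝ ((Λ : Set V) ∩ N) with hS
    have hcl : IsClosed (S : Set V) := S.closed_of_finiteDimensional
    rw [← SetLike.mem_coe, ← hcl.closure_eq, Metric.mem_closure_iff]
    intro δ hδ
    obtain ⟨k, hk, l, hl, hkl⟩ := dirichlet hΛ v (ε := min ε δ) (lt_min hε hδ)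
    have hkv : (k : ℝ) • v ∈ N := N.smul_mem _ hv
    have hlN : l ∈ N := h l hl ⟨(k : ℝ) • v, hkv, by
      rw [norm_sub_rev]; exact lt_of_lt_of_le hkl (min_le_left _ _)⟩
    have hk0 : (0 : ℝ) < k := by exact_mod_cast hk
    refine ⟨(k : ℝ)⁻¹ • l, S.smul_mem _ (Submodule.subset_span ⟨hl, hlN⟩), ?_⟩
    rw [dist_eq_norm]
    have h3 : v - (k : ℝ)⁻¹ • l = (k : ℝ)⁻¹ • ((k : ℝ) • v - l) := by
      rw [smul_sub, smul_smul, inv_mul_cancel₀ hk0.ne', one_smul]
    rw [h3, norm_smul, norm_inv, Real.norm_of_nonneg hk0.le]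
    have h4 : ‖(k : ℝ) • v - l‖ < δ := lt_of_lt_of_le hkl (min_le_right _ _)
    have h5 : (k : ℝ)⁻¹ ≤ 1 := inv_le_one_of_one_le₀ (by exact_mod_cast hk)
    calc (k : ℝ)⁻¹ * ‖(k : ℝ) • v - l‖ ≤ 1 * ‖(k : ℝ) • v - l‖ := by gcongr
      _ < δ := by rw [one_mul]; exact h4

/-- A subspace spanned by elements of `Λ` contains them cocompactly. -/
theorem cocpt_of_span {Λ : AddSubgroup V} (N : Submodule ℝ V)
    (h : Submodule.span ℝ ((Λ : Set V) ∩ N) = N) :
    ∃ R : ℝ, ∀ x ∈ N, ∃ l ∈ Λ, l ∈ N ∧ ‖x - l‖ ≤ R := by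
  classical
  -- choose a finite subset of `Λ ∩ N` spanning `N`
  obtain ⟨t, htsub, htspan⟩ : ∃ t : Finset V, (t : Set V) ⊆ (Λ : Set V) ∩ N ∧
      Submodule.span ℝ (t : Set V) = N := by
    obtain ⟨s, hs, hspan⟩ := Submodule.exists_fun_fin_finrank_span_eq ℝ ((Λ : Set V) ∩ N)
    refine ⟨Finset.univ.image s, ?_, ?_⟩
    · intro x hx
      simp only [Finset.coe_image, Finset.coe_univ, Set.image_univ, Set.mem_range] at hx
      obtain ⟨i, rfl⟩ := hx
      exact hs i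
    · simp only [Finset.coe_image, Finset.coe_univ, Set.image_univ]
      rw [hspan.1, h]
  refine ⟨∑ x ∈ t, ‖x‖, fun x hx => ?_⟩
  rw [← htspan, Submodule.mem_span_finset] at hx
  obtain ⟨c, -, hc⟩ := hx
  refine ⟨∑ y ∈ t, ⌊c y⌋ • y, Λ.sum_mem fun y hy => Λ.zsmul_mem (htsub hy).1 _,
    N.sum_mem fun y hy => by
      have := N.smul_mem ((⌊c y⌋ : ℤ) : ℝ) (htsub hy).2
      rwa [Int.cast_smul_eq_zsmul ℝ] at this, ?_⟩
  rw [← hc, ← Finset.sum_sub_distrib]
  refine (norm_sum_le _ _).trans (Finset.sum_le_sum fun y _ => ?_)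
  have h1 : c y • y - ⌊c y⌋ • y = Int.fract (c y) • y := by
    rw [← Int.cast_smul_eq_zsmul ℝ, ← sub_smul]; rfl
  rw [h1, norm_smul]
  have h2 : ‖Int.fract (c y)‖ ≤ 1 := by
    rw [Real.norm_of_nonneg (Int.fract_nonneg _)]
    exact (Int.fract_lt_one _).le
  calc ‖Int.fract (c y)‖ * ‖y‖ ≤ 1 * ‖y‖ := by gcongr
    _ = ‖y‖ := one_mul _

/-- (R1s) Sequence form of (R1). -/
theorem span_eq_of_seq {Λ : AddSubgroup V} (hΛ : Cocpt Λ) (N : Submodule ℝ V)
    (h : ∀ l : ℕ → V, (∀ j, l j ∈ Λ) → (∀ j, l j ∉ N) → ∀ a : ℕ → V, (∀ j, a j ∈ N) →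
      ¬ Tendsto (fun j => l j - a j) atTop (𝓝 0)) :
    Submodule.span ℝ ((Λ : Set V) ∩ N) = N ∧
      ∃ R : ℝ, ∀ x ∈ N, ∃ l ∈ Λ, l ∈ N ∧ ‖x - l‖ ≤ R := by
  have key : ∃ ε : ℝ, 0 < ε ∧ ∀ l ∈ Λ, (∃ a ∈ N, ‖l - a‖ < ε) → l ∈ N := by
    by_contra hcon
    have hpos : ∀ j : ℕ, (0 : ℝ) < 1 / ((j : ℝ) + 1) := fun j => by positivity
    have hcon' : ∀ j : ℕ, ∃ l ∈ Λ, ∃ a ∈ N, ‖l - a‖ < 1 / ((j : ℝ) + 1) ∧ l ∉ N := by
      intro j
      by_contra hj
      refine hcon ⟨1 / ((j : ℝ) + 1), hpos j, fun l hl hla => ?_⟩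
      obtain ⟨a, ha, hla⟩ := hla
      by_contra hlN
      exact hj ⟨l, hl, a, ha, hla, hlN⟩
    choose l hl a ha hla hlN using hcon'
    refine h l hl hlN a ha ?_
    rw [tendsto_zero_iff_norm_tendsto_zero]
    exact squeeze_zero (fun _ => norm_nonneg _) (fun j => (hla j).le)
      tendsto_one_div_add_atTop_nhds_zero_nat
  obtain ⟨ε, hε, hN⟩ := key
  have h1 := span_eq_of_near hΛ N hε hN
  exact ⟨h1, cocpt_of_span N h1⟩

/-- (R2) A subgroup which contains a difference of two terms of every sequence has finite index. -/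
theorem finiteIndex_of_seq {A : Type*} [AddGroup A] (C : AddSubgroup A)
    (h : ∀ f : ℕ → A, ∃ i j, i < j ∧ - f i + f j ∈ C) : C.FiniteIndex := by
  by_contra hC
  have hinf : Infinite (A ⧸ C) := by
    by_contra hfin
    rw [not_infinite_iff_finite] at hfin
    exact hC AddSubgroup.finiteIndex_of_finite_quotient
  obtain ⟨g, hg⟩ := Infinite.natEmbedding (A ⧸ C)
  let f : ℕ → A := fun k => (g k).out
  obtain ⟨i, j, hij, hm⟩ := h f
  have : (QuotientAddGroup.mk (f i) : A ⧸ C) = QuotientAddGroup.mk (f j) :=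
    QuotientAddGroup.eq.2 hm
  simp only [f, Quotient.out_eq'] at this
  exact absurd (hg this) hij.ne

/-- Rational subspaces: spanned by elements of `Λ`. -/
def Rational (Λ : AddSubgroup V) (N : Submodule ℝ V) : Prop :=
  Submodule.span ℝ ((Λ : Set V) ∩ N) = N

/-- There are countably many rational subspaces. -/
theorem countable_rational (Λ : AddSubgroup V) (hc : (Λ : Set V).Countable) :
    {N : Submodule ℝ V | Rational Λ N}.Countable := by
  classical
  have : Countable (Λ : Set V) := hc.to_subtype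
  have h1 : (Set.range fun t : Finset (Λ : Set V) =>
      Submodule.span ℝ ((fun x : (Λ : Set V) => (x : V)) '' (t : Set (Λ : Set V)))).Countable :=
    Set.countable_range _
  refine h1.mono fun N hN => ?_
  obtain ⟨s, hs, hspan⟩ := Submodule.exists_fun_fin_finrank_span_eq ℝ ((Λ : Set V) ∩ N)
  refine ⟨Finset.univ.image fun i => (⟨s i, (hs i).1⟩ : (Λ : Set V)), ?_⟩
  have h2 : (fun x : (Λ : Set V) => (x : V)) ''
      ((Finset.univ.image fun i => (⟨s i, (hs i).1⟩ : (Λ : Set V)) : Finset (Λ : Set V)) :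
        Set (Λ : Set V)) = Set.range s := by
    ext x
    simp
  simp only [h2, hspan.1]
  exact hN

/-- (R3) A continuous map with countable range on a connected set is constant. -/
theorem const_of_countable {X Y : Type*} [TopologicalSpace X] [MetricSpace Y] {s : Set X}
    (hs : IsPreconnected s) {f : X → Y} (hf : ContinuousOn f s) (hc : (f '' s).Countable) :
    ∀ x ∈ s, ∀ y ∈ s, f x = f y := by
  intro x hx y hy
  exact hc.isTotallyDisconnected _ subset_rfl (hs.image f hf) ⟨x, hx, rfl⟩ ⟨y, hy, rfl⟩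

/-- (R3) A family of rational subspaces which is continuous in the sense that some continuous
function determines it is constant on connected sets. -/
theorem const_of_rational {X Y : Type*} [TopologicalSpace X] [MetricSpace Y] {s : Set X}
    (hs : IsPreconnected s) {Λ : AddSubgroup V} (hΛ : (Λ : Set V).Countable)
    (Q : X → Submodule ℝ V) (hQ : ∀ x ∈ s, Rational Λ (Q x)) (f : X → Y) (hf : ContinuousOn f s)
    (hfQ : ∀ x ∈ s, ∀ y ∈ s, (f x = f y ↔ Q x = Q y)) :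
    ∀ x ∈ s, ∀ y ∈ s, Q x = Q y := by
  classical
  intro x hx y hy
  refine (hfQ x hx y hy).1 (const_of_countable hs hf ?_ x hx y hy)
  -- the image is countable: choose for each rational subspace in the range a point
  have h1 : (Q '' s).Countable := (countable_rational Λ hΛ).mono (by
    rintro _ ⟨z, hz, rfl⟩
    exact hQ z hz)
  rcases s.eq_empty_or_nonempty with rfl | ⟨z0, hz0⟩
  · simp
  let g : Submodule ℝ V → Y := fun N => if h : ∃ z ∈ s, Q z = N then f h.choose else f z0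
  refine (h1.image g).mono ?_
  rintro _ ⟨z, hz, rfl⟩
  refine ⟨Q z, ⟨z, hz, rfl⟩, ?_⟩
  have h2 : ∃ z' ∈ s, Q z' = Q z := ⟨z, hz, rfl⟩
  simp only [g, dif_pos h2]
  exact (hfQ _ h2.choose_spec.1 _ hz).2 h2.choose_spec.2

end Vale.Agent.P284.H661
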